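import Mathlib

/-!
# Row 41, module EXP, part 1 (helper98)
The additive character `e`, rational approximations `Appr`, the linear Vinogradov lemma and the
"lift" lemma used in the inductive proofs of the Weyl inverse theorems.
-/

set_option autoImplicit false

open Finset

namespace Crest.Agent.N41.Exp

/-- `e x = exp (2 π i x)`. -/
noncomputable def e (x : ℝ) : ℂ := Complex.exp (2 * Real.pi * Complex.I * x)

lemma e_add (x y : ℝ) : e (x + y) = e x * e y := by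
  unfold e; rw [← Complex.exp_add]; congr 1; push_cast; ring

@[simp] lemma e_zero : e 0 = 1 := by simp [e]

lemma e_eq (x : ℝ) : e x = Complex.exp (Complex.I * ((2 * Real.pi * x : ℝ) : ℂ)) := by
  unfold e; congr 1; push_cast; ring

@[simp] lemma norm_e (x : ℝ) : ‖e x‖ = 1 := by
  rw [e_eq, Complex.norm_exp_I_mul_ofReal]

lemma e_int (r : ℤ) : e r = 1 := by
  unfold e
  have := Complex.exp_int_mul_two_pi_mul_I r
  rw [← this]; congr 1; push_cast; ring

lemma conj_e (x : ℝ) : (starRingEnd ℂ) (e x) = e (-x) := by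
  unfold e
  rw [← Complex.exp_conj]; congr 1
  have h2 : (starRingEnd ℂ) 2 = 2 := Complex.conj_ofNat 2
  simp [Complex.conj_ofReal, h2]

lemma e_sub (x y : ℝ) : e (x - y) = e x * (starRingEnd ℂ) (e y) := by
  rw [conj_e, ← e_add, sub_eq_add_neg]

lemma e_nat_mul (n : ℕ) (x : ℝ) : e (n * x) = e x ^ n := by
  induction n with
  | zero => simp
  | succ n ih => rw [pow_succ, ← ih, ← e_add]; congr 1; push_cast; ring

lemma e_eq_fourierChar (x : ℝ) : e x = (Real.fourierChar x : ℂ) := by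
  rw [Real.fourierChar_apply, e_eq, mul_comm]

/-- `|e x - 1| ≥ 4 ‖x‖`. -/
lemma four_mul_le_norm_e_sub_one (x : ℝ) : 4 * |x - round x| ≤ ‖e x - 1‖ := by
  have h1 : e x = e (x - round x) := by
    rw [sub_eq_add_neg, e_add, ← Int.cast_neg, e_int, mul_one]
  rw [h1, e_eq, Complex.norm_exp_I_mul_ofReal_sub_one]
  set y := x - round x with hy
  have h2 : |y| ≤ 1 / 2 := abs_sub_round x
  have hpi := Real.pi_pos
  have h3 : |Real.pi * y| ≤ Real.pi / 2 := by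
    rw [abs_mul, abs_of_pos hpi]; nlinarith
  have h4 := Real.mul_abs_le_abs_sin h3
  have h5 : 2 * Real.pi * y / 2 = Real.pi * y := by ring
  rw [h5, Real.norm_eq_abs, abs_mul, abs_two]
  rw [abs_mul, abs_of_pos hpi] at h4
  have h6 : 2 / Real.pi * (Real.pi * |y|) = 2 * |y| := by field_simp
  linarith

/-- `β` has a rational approximation with denominator at most `Q`: `‖q β‖ ≤ ε`. -/
def Appr (β Q ε : ℝ) : Prop :=
  ∃ q : ℕ, 1 ≤ q ∧ (q : ℝ) ≤ Q ∧ ∃ r : ℤ, |(q : ℝ) * β - r| ≤ ε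

lemma Appr.mono {β Q ε Q' ε' : ℝ} (h : Appr β Q ε) (hQ : Q ≤ Q') (hε : ε ≤ ε') :
    Appr β Q' ε' := by
  obtain ⟨q, h1, h2, r, h3⟩ := h
  exact ⟨q, h1, h2.trans hQ, r, h3.trans hε⟩

lemma appr_triv (β : ℝ) {Q ε : ℝ} (hQ : 1 ≤ Q) (hε : 1 / 2 ≤ ε) : Appr β Q ε :=
  ⟨1, le_rfl, by simpa using hQ, round β, by simpa using (abs_sub_round β).trans hε⟩

lemma Appr.of_mul {β Q ε : ℝ} {c : ℕ} (hc : 1 ≤ c) (h : Appr (c * β) Q ε) :
    Appr β (c * Q) ε := by
  obtain ⟨q, h1, h2, r, h3⟩ := h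
  refine ⟨c * q, Nat.mul_pos hc h1, ?_, r, ?_⟩
  · push_cast; gcongr
  · push_cast; convert h3 using 3; ring

/-- trivial range: `N ≤ D ^ A`. -/
lemma appr_small (β : ℝ) {D N : ℝ} (hD : 2 ≤ D) (hN0 : 0 < N) {A k C : ℕ} (hN : N ≤ D ^ A)
    (hC : A * k ≤ C) : Appr β (D ^ C) (D ^ C / N ^ k) := by
  have hD1 : (1 : ℝ) ≤ D := by linarith
  refine appr_triv β (one_le_pow₀ hD1) ?_
  have h1 : N ^ k ≤ D ^ C := by
    calc N ^ k ≤ (D ^ A) ^ k := by gcongr
      _ = D ^ (A * k) := by rw [pow_mul]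
      _ ≤ D ^ C := pow_le_pow_right₀ hD1 hC
  have h2 : 0 < N ^ k := by positivity
  rw [le_div_iff₀ h2]; linarith

/-- a set of integers of diameter at most `w` has at most `w + 1` elements -/
lemma card_le_of_diam (T : Finset ℤ) {w : ℝ} (hw : 0 ≤ w)
    (h : ∀ x ∈ T, ∀ y ∈ T, ((y : ℝ) - x) ≤ w) : (T.card : ℝ) ≤ w + 1 := by
  rcases T.eq_empty_or_nonempty with rfl | hT
  · simp; linarith
  have hsub : T ⊆ Icc (T.min' hT) (T.max' hT) := fun x hx =>
    mem_Icc.2 ⟨T.min'_le x hx, T.le_max' x hx⟩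
  have h1 := card_le_card hsub
  rw [Int.card_Icc] at h1
  have h2 := h _ (T.min'_mem hT) _ (T.max'_mem hT)
  have h3 : T.min' hT ≤ T.max' hT := T.min'_le _ (T.max'_mem hT)
  have h4 : ((T.card : ℤ)) ≤ T.max' hT + 1 - T.min' hT := by omega
  have h5 : ((T.card : ℝ)) ≤ (T.max' hT : ℝ) + 1 - T.min' hT := by exact_mod_cast h4
  linarith

/-- counting through fibres -/
lemma card_le_of_fibres (S : Finset ℤ) (φ : ℤ → ℤ) {J w : ℝ} (hJ : 0 ≤ J) (hw : 0 ≤ w)
    (hφ : ∀ x ∈ S, |(φ x : ℝ)| ≤ J)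
    (hfib : ∀ x ∈ S, ∀ y ∈ S, φ x = φ y → ((y : ℝ) - x) ≤ w) :
    (S.card : ℝ) ≤ (2 * J + 1) * (w + 1) := by
  have h1 : S.card = ∑ j ∈ S.image φ, (S.filter (fun x => φ x = j)).card :=
    card_eq_sum_card_image φ S
  have h2 : ((S.image φ).card : ℝ) ≤ 2 * J + 1 := by
    apply card_le_of_diam _ (by linarith)
    intro x hx y hy
    obtain ⟨x', hx', rfl⟩ := mem_image.1 hx
    obtain ⟨y', hy', rfl⟩ := mem_image.1 hy
    have := abs_le.1 (hφ x' hx')
    have := abs_le.1 (hφ y' hy')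
    linarith
  rw [h1]; push_cast
  calc ∑ j ∈ S.image φ, ((S.filter (fun x => φ x = j)).card : ℝ)
      ≤ ∑ _j ∈ S.image φ, (w + 1) := by
        refine sum_le_sum fun j _ => card_le_of_diam _ hw ?_
        intro x hx y hy
        rw [mem_filter] at hx hy
        exact hfib x hx.1 y hy.1 (hx.2.trans hy.2.symm)
    _ = (S.image φ).card * (w + 1) := by rw [sum_const, nsmul_eq_mul]
    _ ≤ _ := by gcongr

/-- two close elements in a dense set -/
lemma exists_close (S : Finset ℤ) {L D : ℝ} (hD : 2 ≤ D) (hL : D ^ 4 ≤ L)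
    (hS : ∀ h ∈ S, |(h : ℝ)| ≤ L) (hcard : L ≤ D * S.card) :
    ∃ x ∈ S, ∃ y ∈ S, x < y ∧ ((y : ℝ) - x) ≤ 8 * D := by
  by_contra hcon
  push Not at hcon
  have hD0 : 0 < D := by linarith
  have hL0 : 0 < L := lt_of_lt_of_le (by positivity) hL
  have key := card_le_of_fibres S (fun x => ⌊(x : ℝ) / (8 * D)⌋) (J := L / (8 * D) + 1) (w := 0)
    (by positivity) le_rfl ?_ ?_
  · have h1 : D * S.card ≤ D * ((2 * (L / (8 * D) + 1) + 1) * (0 + 1)) := by gcongr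
    have h2 : D * ((2 * (L / (8 * D) + 1) + 1) * (0 + 1)) = L / 4 + 3 * D := by
      field_simp; ring
    have h3 : 8 * D ≤ D ^ 4 := by
      have : (2 : ℝ) ^ 3 ≤ D ^ 3 := by gcongr
      calc 8 * D = 2 ^ 3 * D := by norm_num
        _ ≤ D ^ 3 * D := by gcongr
        _ = D ^ 4 := by ring
    linarith
  · intro x hx
    have h2 : |(x : ℝ) / (8 * D)| ≤ L / (8 * D) := by
      rw [abs_div, abs_of_pos (by positivity : 0 < 8 * D)]; gcongr; exact hS x hx
    have h3 := abs_le.1 h2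
    have h4 := Int.floor_le ((x : ℝ) / (8 * D))
    have h5 := Int.lt_floor_add_one ((x : ℝ) / (8 * D))
    rw [abs_le]; constructor <;> linarith
  · intro x hx y hy hxy
    by_contra hlt
    push Not at hlt
    have hlt' : x < y := by
      have : (x : ℝ) < y := by linarith
      exact_mod_cast this
    have h1 := hcon x hx y hy hlt'
    have h4 := Int.floor_le ((x : ℝ) / (8 * D))
    have h5 := Int.lt_floor_add_one ((y : ℝ) / (8 * D))
    rw [← hxy] at h5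
    have h6 : (y : ℝ) / (8 * D) - x / (8 * D) < 1 := by linarith
    rw [← sub_div, div_lt_one (by positivity)] at h6
    linarith

lemma const_mul_pow_le {D : ℝ} (hD : 2 ≤ D) {c : ℝ} {a b : ℕ} (j : ℕ) (hc : c ≤ 2 ^ j)
    (hab : j + a ≤ b) : c * D ^ a ≤ D ^ b := by
  have hD1 : (1 : ℝ) ≤ D := by linarith
  calc c * D ^ a ≤ 2 ^ j * D ^ a := by gcongr
    _ ≤ D ^ j * D ^ a := by gcongr
    _ = D ^ (j + a) := by rw [pow_add]
    _ ≤ D ^ b := pow_le_pow_right₀ hD1 hab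

/-- **Linear Vinogradov lemma.** -/
lemma vino (θ : ℝ) (S : Finset ℤ) {L D ε : ℝ} (hD : 2 ≤ D) (hL : D ^ 4 ≤ L)
    (hS : ∀ h ∈ S, |(h : ℝ)| ≤ L) (hcard : L ≤ D * S.card) (hε : 0 ≤ ε) (hεD : ε * D ^ 10 ≤ 1)
    (hθ : ∀ h ∈ S, ∃ r : ℤ, |(h : ℝ) * θ - r| ≤ ε) : Appr θ (D ^ 4) (D ^ 10 * ε / L) := by
  have hD0 : 0 < D := by linarith
  have hL0 : 0 < L := lt_of_lt_of_le (by positivity) hL
  choose! r hr using hθ
  obtain ⟨x, hx, y, hy, hxy, hd⟩ := exists_close S hD hL hS hcard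
  obtain ⟨q, hq⟩ : ∃ q : ℕ, (q : ℤ) = y - x := ⟨(y - x).toNat, by omega⟩
  have hq1 : 1 ≤ q := by omega
  have hqR : (q : ℝ) = y - x := by exact_mod_cast hq
  have hq8 : (q : ℝ) ≤ 8 * D := by linarith
  have h84 : 8 * D ≤ D ^ 4 := by
    simpa using const_mul_pow_le hD (c := 8) (a := 1) (b := 4) 3 (by norm_num) (by norm_num)
  refine ⟨q, hq1, hq8.trans h84, r y - r x, ?_⟩
  set η : ℝ := (q : ℝ) * θ - ((r y - r x : ℤ) : ℝ) with hη
  have hη2 : |η| ≤ 2 * ε := by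
    have e1 : η = ((y : ℝ) * θ - r y) - ((x : ℝ) * θ - r x) := by
      rw [hη, hqR]; push_cast; ring
    rw [e1]
    have := abs_sub ((y : ℝ) * θ - r y) ((x : ℝ) * θ - r x)
    linarith [hr x hx, hr y hy]
  rcases eq_or_lt_of_le (abs_nonneg η) with h0 | hpos
  · rw [← h0]; positivity
  set E : ℝ := 8 * D * ε with hE
  have hεE : ε ≤ E := by rw [hE]; nlinarith
  have hE0 : 0 ≤ E := by linarith
  have hDE : 16 * D * E ≤ 1 := by
    have : 128 * D ^ 2 ≤ D ^ 10 := const_mul_pow_le hD 7 (by norm_num) (by norm_num)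
    calc 16 * D * E = ε * (128 * D ^ 2) := by rw [hE]; ring
      _ ≤ ε * D ^ 10 := by gcongr
      _ ≤ 1 := hεD
  have hE1 : E ≤ 1 := by nlinarith
  have happ : ∀ h ∈ S, |(h : ℝ) * η - ((q * r h - h * (r y - r x) : ℤ) : ℝ)| ≤ E := by
    intro h hh
    have e1 : (h : ℝ) * η - ((q * r h - h * (r y - r x) : ℤ) : ℝ) = q * ((h : ℝ) * θ - r h) := by
      rw [hη]; push_cast; ring
    rw [e1, abs_mul, Nat.abs_cast, hE]
    exact mul_le_mul hq8 (hr h hh) (abs_nonneg _) (by positivity)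
  have key := card_le_of_fibres S (fun h => q * r h - h * (r y - r x)) (J := L * |η| + 1)
    (w := 2 * E / |η|) (by positivity) (by positivity) ?_ ?_
  · have hw1 : 1 ≤ 2 * E / |η| := by rw [le_div_iff₀ hpos]; linarith
    have h1 : (S.card : ℝ) ≤ (2 * (L * |η| + 1) + 1) * (2 * (2 * E / |η|)) := by
      refine key.trans ?_
      gcongr; linarith
    have h2 : (2 * (L * |η| + 1) + 1) * (2 * (2 * E / |η|)) = 8 * L * E + 12 * E / |η| := by
      field_simp; ring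
    have h3 : L ≤ D * (8 * L * E + 12 * E / |η|) := by
      refine hcard.trans ?_
      rw [← h2]; gcongr
    have h4 : D * (8 * L * E) ≤ L / 2 := by nlinarith
    have h5 : L / 2 ≤ 12 * D * E / |η| := by
      have : D * (8 * L * E + 12 * E / |η|) = D * (8 * L * E) + 12 * D * E / |η| := by ring
      linarith
    rw [le_div_iff₀ hpos] at h5
    rw [le_div_iff₀ hL0]
    have h6 : 192 * D ^ 2 ≤ D ^ 10 := const_mul_pow_le hD 8 (by norm_num) (by norm_num)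
    calc |η| * L ≤ 24 * D * E := by linarith
      _ = 192 * D ^ 2 * ε := by rw [hE]; ring
      _ ≤ D ^ 10 * ε := by gcongr
  · intro h hh
    have h1 := happ h hh
    have h2 : |(h : ℝ) * η| ≤ L * |η| := by rw [abs_mul]; gcongr; exact hS h hh
    have h3 := abs_le.1 h1
    have h4 := abs_le.1 h2
    rw [abs_le]; constructor <;> linarith
  · intro u hu v hv huv
    have h1 := abs_le.1 (happ u hu)
    have h2 := abs_le.1 (happ v hv)
    rw [huv] at h1
    have h3 : |((v : ℝ) - u) * η| ≤ 2 * E := by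
      rw [abs_le]; constructor <;> nlinarith
    rw [le_div_iff₀ hpos]
    rw [abs_mul] at h3
    have := le_abs_self ((v : ℝ) - u)
    nlinarith

/-- pigeonhole on the denominator -/
lemma appr_pigeon {ι : Type*} (S : Finset ι) (θ : ι → ℝ) {Q ε : ℝ} (hQ : 1 ≤ Q)
    (h : ∀ i ∈ S, Appr (θ i) Q ε) :
    ∃ q : ℕ, 1 ≤ q ∧ (q : ℝ) ≤ Q ∧ ∃ S' ⊆ S, (S.card : ℝ) ≤ Q * S'.card ∧
      ∀ i ∈ S', ∃ r : ℤ, |(q : ℝ) * θ i - r| ≤ ε := by
  classical
  choose! q hq1 hq2 hq3 using h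
  have hne : (Icc 1 ⌊Q⌋₊).Nonempty := ⟨1, mem_Icc.2 ⟨le_rfl, Nat.le_floor (by simpa using hQ)⟩⟩
  have hmaps : ∀ i ∈ S, q i ∈ Icc 1 ⌊Q⌋₊ := fun i hi =>
    mem_Icc.2 ⟨hq1 i hi, Nat.le_floor (hq2 i hi)⟩
  obtain ⟨q0, hq0, hmax⟩ := exists_max_image (Icc 1 ⌊Q⌋₊)
    (fun j => (S.filter (fun i => q i = j)).card) hne
  have h1 := card_le_mul_card_image_of_maps_to hmaps _ hmax
  rw [mem_Icc] at hq0
  have hfl : (⌊Q⌋₊ : ℝ) ≤ Q := Nat.floor_le (by linarith)
  refine ⟨q0, hq0.1, (Nat.cast_le.2 hq0.2).trans hfl, S.filter (fun i => q i = q0),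
    filter_subset _ _, ?_, ?_⟩
  · rw [Nat.card_Icc, Nat.add_sub_cancel] at h1
    have h2 : (S.card : ℝ) ≤ (S.filter (fun i => q i = q0)).card * (⌊Q⌋₊ : ℝ) := by
      exact_mod_cast h1
    rw [mul_comm]
    exact h2.trans (by gcongr)
  · intro i hi
    rw [mem_filter] at hi
    rw [← hi.2]; exact hq3 i hi.1

/-- **Lift lemma**: approximations of many multiples `h θ` give a better approximation of `θ`. -/
lemma lift (θ : ℝ) (S : Finset ℤ) {L D ε : ℝ} (hD : 2 ≤ D) (hL : D ^ 8 ≤ L)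
    (hS : ∀ h ∈ S, |(h : ℝ)| ≤ L) (hcard : L ≤ D * S.card) (hε : 0 ≤ ε) (hεD : ε * D ^ 20 ≤ 1)
    (hθ : ∀ h ∈ S, Appr ((h : ℝ) * θ) D ε) : Appr θ (D ^ 9) (D ^ 20 * ε / L) := by
  have hD1 : (1 : ℝ) ≤ D := by linarith
  obtain ⟨q, hq1, hq2, S', hS', hc, hr⟩ := appr_pigeon S (fun h => (h : ℝ) * θ) hD1 hθ
  have hD2 : 2 ≤ D ^ 2 := by nlinarith
  have h := vino ((q : ℝ) * θ) S' (L := L) (D := D ^ 2) (ε := ε) hD2
    (by rwa [← pow_mul]) (fun h hh => hS h (hS' hh))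
    (hcard.trans (by rw [pow_two, mul_assoc]; gcongr)) hε (by rwa [← pow_mul])
    (fun h hh => by
      obtain ⟨r, hr'⟩ := hr h hh
      exact ⟨r, by convert hr' using 3; ring⟩)
  refine (h.of_mul hq1).mono ?_ ?_
  · rw [← pow_mul]
    calc (q : ℝ) * D ^ (2 * 4) ≤ D * D ^ (2 * 4) := by gcongr
      _ = D ^ 9 := by ring
  · rw [← pow_mul]

/-- popularity -/
lemma popular {ι : Type*} (H : Finset ι) (T : ι → ℝ) {A B n t : ℝ} (ht : 0 ≤ t)
    (hA : A ≤ ∑ h ∈ H, T h) (hB : ∀ h ∈ H, T h ≤ B) (hn : (H.card : ℝ) ≤ n)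
    (htn : n * t ≤ A / 2) :
    A / 2 ≤ B * ((H.filter (fun h => t ≤ T h)).card : ℝ) := by
  classical
  have h1 := sum_filter_add_sum_filter_not H (fun h => t ≤ T h) T
  have h2 : ∑ h ∈ H.filter (fun h => t ≤ T h), T h ≤
      B * ((H.filter (fun h => t ≤ T h)).card : ℝ) := by
    calc _ ≤ ∑ _h ∈ H.filter (fun h => t ≤ T h), B :=
          sum_le_sum fun h hh => hB h (mem_filter.1 hh).1
      _ = _ := by rw [sum_const, nsmul_eq_mul, mul_comm]
  have h3 : ∑ h ∈ H.filter (fun h => ¬ t ≤ T h), T h ≤ n * t := by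
    calc _ ≤ ∑ _h ∈ H.filter (fun h => ¬ t ≤ T h), t :=
          sum_le_sum fun h hh => (not_le.1 (mem_filter.1 hh).2).le
      _ = ((H.filter (fun h => ¬ t ≤ T h)).card : ℝ) * t := by rw [sum_const, nsmul_eq_mul]
      _ ≤ n * t := by
          gcongr
          exact le_trans (by exact_mod_cast card_filter_le _ _) hn
  linarith

end Crest.Agent.N41.Exp
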