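import Crest.Agent.N41.Exp.Main

/-!
# Row 41, module C3a (helper98): complete exponential sums modulo a prime
-/

set_option autoImplicit false

open Finset Polynomial

namespace Crest.Agent.N41.Exp

lemma WeylInv.mono {k C C' : ℕ} (h : WeylInv k C) (hC : C ≤ C') : WeylInv k C' := by
  intro P hP a b N D hD hN hab hS
  have h1 : D ^ C ≤ D ^ C' := pow_le_pow_right₀ (by linarith) hC
  exact (h P hP a b N D hD hN hab hS).mono h1 (div_le_div_of_nonneg_right h1 (by positivity))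

lemma exists_weylInv_le (k : ℕ) : ∃ C, ∀ j, 1 ≤ j → j ≤ k → WeylInv j C := by
  induction k with
  | zero => exact ⟨0, fun j h1 h2 => by omega⟩
  | succ k ih =>
    obtain ⟨C, hC⟩ := ih
    obtain ⟨C', hC'⟩ := exists_weylInv (k + 1) (by omega)
    refine ⟨max C C', fun j h1 h2 => ?_⟩
    rcases Nat.lt_or_ge k j with h | h
    · obtain rfl : j = k + 1 := by omega
      exact hC'.mono (le_max_right _ _)
    · exact (hC j h1 h).mono (le_max_left _ _)

lemma e_div_congr {p : ℕ} (hp : 1 ≤ p) {x y : ℤ} (h : (p : ℤ) ∣ x - y) :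
    e ((x : ℝ) / p) = e ((y : ℝ) / p) := by
  obtain ⟨t, ht⟩ := h
  have hp0 : (p : ℝ) ≠ 0 := by positivity
  have h1 : (x : ℝ) = y + p * t := by
    have : x = y + p * t := by linarith
    exact_mod_cast this
  rw [h1, add_div, mul_div_cancel_left₀ _ hp0, e_add, e_int, mul_one]

theorem completeStmt : CompleteStmt := by
  intro k
  obtain ⟨C, hC⟩ := exists_weylInv_le k
  refine ⟨1 / (C + 1), 2 ^ (C + 1), by positivity, ?_⟩
  intro p g a hp hp0 hg hj ha
  classical
  have hp1 : 1 ≤ p := hp.one_lt.le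
  have hpR : (1 : ℝ) < p := by exact_mod_cast hp.one_lt
  have hpZ : Prime (p : ℤ) := Nat.prime_iff_prime_int.1 hp
  obtain ⟨j₀, hj₀, hj₀'⟩ := hj
  have hj₀k : j₀ ≤ k := by
    by_contra h
    exact hj₀' (by rw [coeff_eq_zero_of_natDegree_lt (by omega)]; exact dvd_zero _)
  set j := Nat.findGreatest (fun i => ¬ (p : ℤ) ∣ g.coeff i) k with hjdef
  have hj1 : j₀ ≤ j := Nat.le_findGreatest hj₀k hj₀'
  have hjk : j ≤ k := Nat.findGreatest_le k
  have hj2 : ¬ (p : ℤ) ∣ g.coeff j :=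
    Nat.findGreatest_spec (P := fun i => ¬ (p : ℤ) ∣ g.coeff i) hj₀k hj₀'
  have hj3 : ∀ i, j < i → i ≤ k → (p : ℤ) ∣ g.coeff i := fun i h1 h2 => by
    have := Nat.findGreatest_is_greatest (P := fun i => ¬ (p : ℤ) ∣ g.coeff i) h1 h2
    simpa using this
  have hred : ∀ n : ℤ, (p : ℤ) ∣ a * g.eval n - ∑ i ∈ range (j + 1), a * g.coeff i * n ^ i := by
    intro n
    rw [eval_eq_sum_range' (n := k + 1) (by omega), mul_sum,
      ← sum_range_add_sum_Ico _ (show j + 1 ≤ k + 1 by omega)]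
    simp only [← mul_assoc, add_sub_cancel_left]
    refine dvd_sum fun i hi => ?_
    rw [mem_Ico] at hi
    exact Dvd.dvd.mul_right (Dvd.dvd.mul_left (hj3 i (by omega) (by omega)) _) _
  have hsum : ∑ n ∈ range p, e (((a * g.eval (n : ℤ) : ℤ) : ℝ) / p) = ∑ n ∈ range p,
      e (((∑ i ∈ range (j + 1), a * g.coeff i * (n : ℤ) ^ i : ℤ) : ℝ) / p) :=
    sum_congr rfl fun n _ => e_div_congr hp1 (hred n)
  rw [hsum]
  have hac : ¬ (p : ℤ) ∣ a * g.coeff j := fun h => (hpZ.dvd_or_dvd h).elim ha hj2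
  rcases Nat.lt_or_ge j 2 with hj4 | hj4
  · have hj5 : j = 1 := by omega
    rw [hj5] at hac ⊢
    have h1 : ∀ n ∈ range p, e (((∑ i ∈ range (1 + 1), a * g.coeff i * (n : ℤ) ^ i : ℤ) : ℝ) / p) =
        e (((a * g.coeff 0 : ℤ) : ℝ) / p) * e ((n : ℝ) * (((a * g.coeff 1 : ℤ) : ℝ) / p)) := by
      intro n _
      rw [← e_add]; congr 1
      simp only [sum_range_succ, sum_range_zero]; push_cast; ring
    rw [sum_congr rfl h1, ← mul_sum, sum_e_div p hp1, if_neg hac, mul_zero, norm_zero]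
    positivity
  by_contra hcon
  push Not at hcon
  set P : ℝ[X] := ∑ i ∈ range (j + 1), monomial i (((a * g.coeff i : ℤ) : ℝ) / p) with hP
  have hPc : ∀ i, P.coeff i = if i ≤ j then ((a * g.coeff i : ℤ) : ℝ) / p else 0 := by
    intro i
    simp only [hP, finsetSum_coeff, coeff_monomial, sum_ite_eq', mem_range, Nat.lt_succ_iff]
  have hPd : P.natDegree ≤ j := by
    rw [natDegree_le_iff_coeff_eq_zero]
    intro i hi; rw [hPc, if_neg (by omega)]
  have hPe : ∀ n : ℕ, P.eval (n : ℝ) =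
      ((∑ i ∈ range (j + 1), a * g.coeff i * (n : ℤ) ^ i : ℤ) : ℝ) / p := by
    intro n
    simp only [hP, eval_finsetSum, eval_monomial]
    push_cast
    rw [sum_div]
    exact sum_congr rfl fun i _ => by ring
  set D : ℝ := (p : ℝ) ^ (1 / ((C : ℝ) + 1)) with hD
  have hDp : D ^ (C + 1) = p := by
    rw [hD, ← Real.rpow_natCast, ← Real.rpow_mul (by positivity)]
    push_cast
    rw [one_div_mul_cancel (by positivity), Real.rpow_one]
  have hD0 : 0 < D := by positivity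
  have hD2 : 2 ≤ D := by
    refine le_of_pow_le_pow_left₀ (n := C + 1) (by omega) hD0.le ?_
    rw [hDp]; exact_mod_cast hp0.le
  have hDC : D ^ C < p := by
    rw [← hDp]; exact pow_lt_pow_right₀ (by linarith) (by omega)
  have hcv : Cvx (range p) := by rw [range_eq_Ico]; exact cvx_Ico 0 p
  obtain ⟨q, hq1, hq2, r, hr⟩ := (hC j (by omega) hjk).nat P hPd (range p) hcv (N := p) hD2
    (by linarith) (by simp) (by
      simp only [hPe]
      rw [Real.rpow_sub (by linarith), Real.rpow_one, div_lt_iff₀ hD0, mul_comm] at hcon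
      exact hcon.le)
  rw [hPc, if_pos le_rfl] at hr
  have hqp : ¬ (p : ℤ) ∣ (q : ℤ) := by
    intro h
    have h1 : p ≤ q := Nat.le_of_dvd hq1 (by exact_mod_cast h)
    have h2 : (p : ℝ) ≤ q := by exact_mod_cast h1
    linarith
  have hne : (q : ℤ) * (a * g.coeff j) - r * p ≠ 0 := by
    intro h
    have : (p : ℤ) ∣ (q : ℤ) * (a * g.coeff j) := ⟨r, by linarith⟩
    exact (hpZ.dvd_or_dvd this).elim hqp hac
  have h1 : (1 : ℝ) ≤ |(((q : ℤ) * (a * g.coeff j) - r * p : ℤ) : ℝ)| := by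
    exact_mod_cast Int.one_le_abs hne
  have h2 : (((q : ℤ) * (a * g.coeff j) - r * p : ℤ) : ℝ) =
      ((q : ℝ) * (((a * g.coeff j : ℤ) : ℝ) / p) - r) * p := by
    push_cast; field_simp
  rw [h2, abs_mul, Nat.abs_cast] at h1
  have h3 : (p : ℝ) ^ 2 ≤ (p : ℝ) ^ j := pow_le_pow_right₀ hpR.le hj4
  have h4 : D ^ C / (p : ℝ) ^ j ≤ D ^ C / (p : ℝ) ^ 2 := by gcongr
  have h5 : D ^ C / (p : ℝ) ^ 2 * p < 1 := by
    rw [div_mul_eq_mul_div, div_lt_one (by positivity), pow_two]; gcongr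
  have h6 := mul_le_mul_of_nonneg_right (hr.trans h4) (by positivity : (0 : ℝ) ≤ p)
  linarith

end Crest.Agent.N41.Exp
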