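import Crest.Agent.N41.DefsC

/-!
# Row 41, modules C3c, C3d (helper98)
-/

set_option autoImplicit false

open Finset Polynomial

namespace Crest.Agent.N41.Exp

theorem nonconstStmt : NonconstStmt := by
  intro pr r d g hg hroot
  refine ⟨fun p hp => ?_, fun hpr => ?_⟩
  · by_contra hcon
    push Not at hcon
    obtain ⟨n, hn, -⟩ := hroot p hp.one_lt.le
    have h0 : (p : ℤ) ∣ g.coeff 0 := by
      rw [eval_eq_sum_range, sum_range_succ'] at hn
      simp only [pow_zero, mul_one] at hn
      exact (dvd_add_right (dvd_sum fun i _ => (hcon (i + 1) (by omega)).mul_right _)).1 hn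
    have h1 : C (p : ℤ) ∣ g := (C_dvd_iff_dvd_coeff _ _).2 fun i => by
      rcases Nat.eq_zero_or_pos i with rfl | hi
      exacts [h0, hcon i hi]
    have h2 := Int.isUnit_iff_natAbs_eq.1 (hg _ h1)
    exact hp.one_lt.ne' (by simpa using h2)
  · obtain ⟨n, -, hn⟩ := hroot 1 le_rfl
    have h1 := hn hpr
    rw [Nat.cast_one, one_mul, IsCoprime.add_mul_left_left_iff] at h1
    exact Nat.isCoprime_iff_coprime.1 h1

lemma evz_refine {p : ℕ} {μ ρ m : ℕ} {g g' : ℤ[X]}
    (h : C (μ : ℤ) * g' = g.comp (C (ρ : ℤ) + C (m : ℤ) * X)) (n : ZMod p) :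
    (μ : ZMod p) * evz p g' n = evz p g (ρ + m * n) ∧
      (μ : ZMod p) * evz p (derivative g') n = m * evz p (derivative g) (ρ + m * n) := by
  have h0 : C (μ : ZMod p) * g'.map (Int.castRingHom (ZMod p)) =
      (g.map (Int.castRingHom (ZMod p))).comp (C (ρ : ZMod p) + C (m : ZMod p) * X) := by
    have := congrArg (Polynomial.map (Int.castRingHom (ZMod p))) h
    rwa [Polynomial.map_mul, Polynomial.map_comp, Polynomial.map_add, Polynomial.map_mul, map_C,
      map_C, map_C, map_X, map_natCast (Int.castRingHom (ZMod p)),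
      map_natCast (Int.castRingHom (ZMod p)), map_natCast (Int.castRingHom (ZMod p))] at this
  have h1 := congrArg (eval n) h0
  have h2 := congrArg (fun Q => eval n (derivative Q)) h0
  simp only [derivative_comp, eval_mul, eval_comp, derivative_C_mul, eval_C, eval_add, eval_X,
    derivative_add, derivative_C, derivative_X, zero_add, mul_one] at h1 h2
  unfold evz
  rw [← derivative_map, ← derivative_map]
  exact ⟨h1, h2⟩

theorem covStmt : CovStmt := by
  intro pr p _ r d ρ m μ g g' hp hm hμ h t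
  have : Fact p.Prime := ⟨hp⟩
  have hm0 : (m : ZMod p) ≠ 0 := fun h => hm ((ZMod.natCast_eq_zero_iff _ _).1 h)
  have hμ0 : (μ : ZMod p) ≠ 0 := fun h => hμ ((ZMod.natCast_eq_zero_iff _ _).1 h)
  let φ : ZMod p ≃ ZMod p := (Equiv.mulLeft₀ (m : ZMod p) hm0).trans (Equiv.addLeft (ρ : ZMod p))
  have hφ : ∀ n, φ n = ρ + m * n := fun n => rfl
  have hadm : ∀ n, n ∈ adm pr p (r + d * ρ) (d * m) g' ↔ φ n ∈ adm pr p r d g := by
    intro n
    have h2 := (evz_refine h n).2
    have h3 : ((r + d * ρ : ℕ) : ZMod p) + ((d * m : ℕ) : ZMod p) * n = r + d * (ρ + m * n) := by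
      push_cast; ring
    unfold adm
    rw [mem_filter, mem_filter, hφ, h3]
    simp only [mem_univ, true_and]
    refine and_congr_left fun _ => not_congr ⟨fun h4 => ?_, fun h4 => ?_⟩
    · rw [h4, mul_zero] at h2
      exact (mul_eq_zero.1 h2.symm).resolve_left hm0
    · rw [h4, mul_zero] at h2
      exact (mul_eq_zero.1 h2).resolve_left hμ0
  have hcard : (adm pr p (r + d * ρ) (d * m) g').card = (adm pr p r d g).card :=
    card_equiv φ hadm
  unfold ker push
  refine sum_equiv φ (fun n => ?_) (fun n _ => ?_)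
  · rw [mem_filter, mem_filter, hφ, ← (evz_refine h n).1]
    simp only [mem_univ, true_and]
    exact ⟨fun h4 => by rw [h4], fun h4 => mul_left_cancel₀ hμ0 h4⟩
  · unfold wadm
    rw [hcard]
    exact if_congr (hadm n) rfl rfl

end Crest.Agent.N41.Exp
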