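import Crest.Agent.N41.Exp.Complete

/-!
# Row 41, module C3b (helper98): the local kernels
-/

set_option autoImplicit false

open Finset Polynomial
open scoped BigOperators

namespace Crest.Agent.N41.Exp

section Fourier

variable {p : ℕ} [NeZero p]

/-- the (unnormalised) Fourier transform of a real function on `ZMod p` -/
noncomputable def ft (u : ZMod p → ℝ) (a : ZMod p) : ℂ :=
  ∑ s, (u s : ℂ) * ZMod.stdAddChar (a * s)

lemma sum_std (b : ZMod p) :
    ∑ a : ZMod p, ZMod.stdAddChar (a * b) = if b = 0 then (p : ℂ) else 0 := by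
  rw [AddChar.sum_mulShift b (ZMod.isPrimitive_stdAddChar p), ZMod.card]
  split_ifs <;> simp

lemma norm_std (x : ZMod p) : ‖ZMod.stdAddChar x‖ = 1 := by
  rw [ZMod.stdAddChar_apply]; exact Circle.norm_coe _

lemma conj_std (x : ZMod p) :
    (starRingEnd ℂ) (ZMod.stdAddChar x) = ZMod.stdAddChar (-x) := by
  rw [AddChar.map_neg_eq_conj]

lemma parseval_ft (u : ZMod p → ℝ) : ∑ a, ‖ft u a‖ ^ 2 = p * ∑ s, u s ^ 2 := by
  have h : ((∑ a, ‖ft u a‖ ^ 2 : ℝ) : ℂ) = ((p * ∑ s, u s ^ 2 : ℝ) : ℂ) := by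
    push_cast
    have e1 : ∀ a, ((‖ft u a‖ : ℝ) : ℂ) ^ 2 =
        ∑ s, ∑ t, (u s : ℂ) * u t * ZMod.stdAddChar (a * (s - t)) := by
      intro a
      rw [← Complex.mul_conj', ft, map_sum, sum_mul_sum]
      refine sum_congr rfl fun s _ => sum_congr rfl fun t _ => ?_
      rw [map_mul (starRingEnd ℂ), Complex.conj_ofReal, conj_std, mul_sub, sub_eq_add_neg,
        AddChar.map_add_eq_mul]
      ring
    simp only [e1]
    rw [sum_comm, mul_sum]
    refine sum_congr rfl fun s _ => ?_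
    rw [sum_comm]
    simp only [← mul_sum, sum_std, sub_eq_zero, mul_ite, mul_zero, sum_ite_eq, mem_univ, if_true]
    ring
  exact_mod_cast h

lemma conv_eq_ft (u v κ : ZMod p → ℝ) :
    ((p * ∑ s, ∑ t, u s * v t * κ (t - s) : ℝ) : ℂ) = ∑ a, ft κ a * (ft u a * ft v (-a)) := by
  have e1 : ∀ a, ft κ a * (ft u a * ft v (-a)) =
      ∑ s, ∑ t, ∑ x, (u s : ℂ) * v t * κ x * ZMod.stdAddChar (a * (x - (t - s))) := by
    intro a
    unfold ft
    rw [sum_mul_sum, mul_sum]
    refine sum_congr rfl fun s _ => ?_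
    rw [mul_sum]
    refine sum_congr rfl fun t _ => ?_
    rw [sum_mul]
    refine sum_congr rfl fun x _ => ?_
    have : a * (x - (t - s)) = a * x + (a * s + -a * t) := by ring
    rw [this, AddChar.map_add_eq_mul, AddChar.map_add_eq_mul]
    ring
  simp only [e1]
  push_cast
  rw [mul_sum]
  symm
  rw [sum_comm]
  refine sum_congr rfl fun s _ => ?_
  rw [sum_comm, mul_sum]
  refine sum_congr rfl fun t _ => ?_
  rw [sum_comm]
  simp only [← mul_sum, sum_std]
  simp only [sub_eq_zero, mul_ite, mul_zero, sum_ite_eq', mem_univ, if_true]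
  ring

/-- small Fourier coefficients give an operator bound -/
lemma opBd_of_ft (κ : ZMod p → ℝ) {ρ : ℝ}
    (h : ∀ a, a ≠ 0 → ‖ft κ a‖ ≤ p * ρ) : OpBd κ ρ := by
  intro u v hu
  have hp : (0 : ℝ) < p := by exact_mod_cast NeZero.pos p
  have hu0 : ft u 0 = 0 := by
    simp only [ft, zero_mul, AddChar.map_zero_eq_one, mul_one]
    exact_mod_cast hu
  have h1 : p * |∑ s, ∑ t, u s * v t * κ (t - s)| ≤
      p * ρ * ∑ a, ‖ft u a‖ * ‖ft v (-a)‖ := by
    have h2 := congrArg norm (conv_eq_ft u v κ)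
    rw [Complex.norm_real, Real.norm_eq_abs, abs_mul, abs_of_pos hp] at h2
    rw [h2, mul_sum]
    refine (norm_sum_le _ _).trans (sum_le_sum fun a _ => ?_)
    rw [norm_mul, norm_mul]
    by_cases ha : a = 0
    · rw [ha, hu0]; simp
    · exact mul_le_mul_of_nonneg_right (h a ha) (by positivity)
  have h3 : (∑ a, ‖ft u a‖ * ‖ft v (-a)‖) ^ 2 ≤ (p * ∑ s, u s ^ 2) * (p * ∑ t, v t ^ 2) := by
    refine (sum_mul_sq_le_sq_mul_sq _ _ _).trans (le_of_eq ?_)
    rw [parseval_ft, ← parseval_ft v]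
    congr 1
    exact Fintype.sum_equiv (Equiv.neg _) _ _ fun a => rfl
  rw [mul_assoc] at h1
  have h4 := le_of_mul_le_mul_left h1 hp
  have h5 : (∑ s, ∑ t, u s * v t * κ (t - s)) ^ 2 ≤
      ρ ^ 2 * ((p * ∑ s, u s ^ 2) * (p * ∑ t, v t ^ 2)) := by
    calc _ = |∑ s, ∑ t, u s * v t * κ (t - s)| ^ 2 := (sq_abs _).symm
      _ ≤ (ρ * ∑ a, ‖ft u a‖ * ‖ft v (-a)‖) ^ 2 := by gcongr
      _ ≤ _ := by rw [mul_pow]; gcongr
  simp only [Fintype.expect_eq_sum_div_card, ZMod.card, ← sum_div]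
  rw [div_div, div_pow, div_le_iff₀ (by positivity)]
  refine h5.trans (le_of_eq ?_)
  field_simp

omit [NeZero p] in
lemma evz_natCast (g : ℤ[X]) (n : ℕ) : evz p g (n : ZMod p) = ((g.eval (n : ℤ) : ℤ) : ZMod p) := by
  unfold evz
  rw [← Int.cast_natCast, eval_intCast_map]; simp

lemma sum_std_evz (g : ℤ[X]) (a : ZMod p) : ∑ n : ZMod p, ZMod.stdAddChar (a * evz p g n) =
    ∑ n ∈ range p, e (((((a.val : ℕ) : ℤ) * g.eval (n : ℤ) : ℤ) : ℝ) / p) := by
  symm
  refine sum_nbij' (fun n : ℕ => (n : ZMod p)) ZMod.val (fun _ _ => mem_univ _)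
    (fun n _ => mem_range.2 (ZMod.val_lt n)) (fun n hn => ZMod.val_cast_of_lt (mem_range.1 hn))
    (fun n _ => ZMod.natCast_zmod_val n) fun n _ => ?_
  have h1 : a * evz p g (n : ZMod p) = ((((a.val : ℕ) : ℤ) * g.eval (n : ℤ) : ℤ) : ZMod p) := by
    rw [evz_natCast]; push_cast; rw [ZMod.natCast_zmod_val]
  rw [h1, ZMod.stdAddChar_coe, e]
  congr 1; push_cast; ring

lemma ft_push (g : ℤ[X]) (π : ZMod p → ℝ) (a : ZMod p) :
    ft (push p g π) a = ∑ n, (π n : ℂ) * ZMod.stdAddChar (a * evz p g n) := by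
  simp only [ft, push, Complex.ofReal_sum, sum_mul]
  rw [← sum_fiberwise_of_maps_to (s := univ) (t := univ) (g := evz p g) (fun _ _ => mem_univ _)
    (fun n => (π n : ℂ) * ZMod.stdAddChar (a * evz p g n))]
  refine sum_congr rfl fun t _ => sum_congr rfl fun n hn => ?_
  rw [(mem_filter.1 hn).2]

lemma sum_push (g : ℤ[X]) (π : ZMod p → ℝ) : ∑ t, push p g π t = ∑ n, π n :=
  sum_fiberwise_of_maps_to (s := univ) (t := univ) (g := evz p g) (fun _ _ => mem_univ _) π

end Fourier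

lemma card_filter_eval_le {F : Type} [Field F] [Fintype F] [DecidableEq F] (G : F[X])
    (hG : G ≠ 0) : (univ.filter fun n => G.eval n = 0).card ≤ G.natDegree := by
  refine card_le_degree_of_subset_roots fun n hn => ?_
  exact (mem_roots hG).2 (mem_filter.1 hn).2

/-- at most `k + 1` residues are not admissible -/
lemma card_not_adm {k : ℕ} (pr : Bool) {p : ℕ} [NeZero p] (hp : p.Prime) (r d : ℕ) (g : ℤ[X])
    (hk : k < p) (hg : g.natDegree ≤ k) (hj : ∃ j, 1 ≤ j ∧ ¬ (p : ℤ) ∣ g.coeff j)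
    (hrd : pr = true → Nat.Coprime r d) : (adm pr p r d g)ᶜ.card ≤ k + 1 := by
  have : Fact p.Prime := ⟨hp⟩
  obtain ⟨j, hj1, hj2⟩ := hj
  have hjk : j ≤ k := by
    by_contra h
    exact hj2 (by rw [coeff_eq_zero_of_natDegree_lt (by omega)]; exact dvd_zero _)
  set G := (derivative g).map (Int.castRingHom (ZMod p)) with hG
  have hG0 : G ≠ 0 := by
    intro h
    obtain ⟨i, rfl⟩ : ∃ i, j = i + 1 := ⟨j - 1, by omega⟩
    have h1 := congrArg (fun Q => Q.coeff i) h
    simp only [hG, coeff_map, coeff_derivative, coeff_zero, eq_intCast, Int.cast_mul] at h1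
    rcases mul_eq_zero.1 h1 with h2 | h2
    · exact hj2 ((ZMod.intCast_zmod_eq_zero_iff_dvd _ _).1 h2)
    · have h3 : ((i + 1 : ℕ) : ZMod p) = 0 := by push_cast at h2 ⊢; exact h2
      have := Nat.le_of_dvd (by omega) ((ZMod.natCast_eq_zero_iff _ _).1 h3)
      omega
  have hGd : G.natDegree ≤ k :=
    natDegree_map_le.trans ((natDegree_derivative_le g).trans (by omega))
  have h1 := (card_filter_eval_le G hG0).trans hGd
  have h2 : (univ.filter fun n : ZMod p => pr = true ∧ (r : ZMod p) + d * n = 0).card ≤ 1 := by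
    rw [card_le_one]
    intro x hx y hy
    have hx' := (mem_filter.1 hx).2
    have hy' := (mem_filter.1 hy).2
    by_cases hd : (d : ZMod p) = 0
    · exfalso
      have h3 : (r : ZMod p) = 0 := by simpa [hd] using hx'.2
      have h4 := Nat.dvd_gcd ((ZMod.natCast_eq_zero_iff _ _).1 h3)
        ((ZMod.natCast_eq_zero_iff _ _).1 hd)
      rw [hrd hx'.1] at h4
      exact hp.one_lt.ne' (Nat.dvd_one.1 h4)
    · exact mul_left_cancel₀ hd (by linear_combination hx'.2 - hy'.2)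
  refine le_trans (card_le_card ?_) ((card_union_le _ _).trans (add_le_add h1 h2))
  intro n hn
  rw [mem_compl] at hn
  by_contra hcon
  simp only [mem_filter, mem_univ, true_and, mem_union] at hcon
  push Not at hcon
  exact hn (mem_filter.2 ⟨mem_univ _, hcon.1, hcon.2⟩)

lemma card_fibre_le {k : ℕ} {p : ℕ} [NeZero p] (hp : p.Prime) (g : ℤ[X])
    (hg : g.natDegree ≤ k) (hj : ∃ j, 1 ≤ j ∧ ¬ (p : ℤ) ∣ g.coeff j) (t : ZMod p) :
    (univ.filter fun n => evz p g n = t).card ≤ k := by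
  have : Fact p.Prime := ⟨hp⟩
  obtain ⟨j, hj1, hj2⟩ := hj
  set G := g.map (Int.castRingHom (ZMod p)) - C t with hG
  have hG0 : G ≠ 0 := by
    intro h
    have h1 := congrArg (fun Q => Q.coeff j) h
    simp only [hG, coeff_sub, coeff_map, coeff_C, if_neg (show j ≠ 0 by omega), coeff_zero,
      eq_intCast, sub_zero] at h1
    exact hj2 ((ZMod.intCast_zmod_eq_zero_iff_dvd _ _).1 h1)
  have hGd : G.natDegree ≤ k := by
    rw [hG, natDegree_sub_C]; exact natDegree_map_le.trans hg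
  refine le_trans (card_le_card fun n hn => ?_) ((card_filter_eval_le G hG0).trans hGd)
  refine mem_filter.2 ⟨mem_univ _, ?_⟩
  rw [hG, eval_sub, eval_C, sub_eq_zero]
  exact (mem_filter.1 hn).2

theorem localExp_of (hC : CompleteStmt) : LocalExpStmt := by
  intro k
  obtain ⟨δ, p₀, hδ, hC⟩ := hC k
  set δ' : ℝ := min δ 1 / 2 with hδ'
  have hδ'0 : 0 < δ' := by positivity
  have hδ'1 : δ' ≤ 1 / 2 := by have := min_le_right δ 1; linarith
  have hδ'2 : 2 * δ' ≤ δ := by have := min_le_left δ 1; linarith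
  refine ⟨δ', p₀ + 16 * (k + 1) ^ 2 + ⌈(4 : ℝ) ^ (1 / δ')⌉₊, hδ'0, ?_⟩
  intro pr p _ r d g hp hp₀ hg hj hrd
  have hk2 : 2 * (k + 1) ≤ p := by nlinarith
  have hp0 : (0 : ℝ) < p := by exact_mod_cast hp.pos
  have hp1 : (1 : ℝ) ≤ p := by exact_mod_cast hp.pos
  have hnot := card_not_adm pr hp r d g (by omega) hg hj hrd
  have hcard : (adm pr p r d g).card + (adm pr p r d g)ᶜ.card = p := by
    rw [card_add_card_compl, ZMod.card]
  have hadm : (p : ℝ) ≤ 2 * (adm pr p r d g).card := by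
    exact_mod_cast (by omega : p ≤ 2 * (adm pr p r d g).card)
  have hadm0 : (0 : ℝ) < (adm pr p r d g).card := by linarith
  have hc2 : (p : ℝ) / (adm pr p r d g).card ≤ 2 := by rwa [div_le_iff₀ hadm0]
  have hw : ∀ n, wadm pr p r d g n ≤ 2 := by
    intro n; unfold wadm; split_ifs
    · exact hc2
    · norm_num
  refine ⟨hw, fun t => ?_, ?_, ?_⟩
  · calc ker pr p r d g t ≤ ∑ _n ∈ univ.filter (fun n => evz p g n = t), (2 : ℝ) :=
          sum_le_sum fun n _ => hw n
      _ = 2 * ((univ.filter (fun n => evz p g n = t)).card : ℝ) := by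
          rw [sum_const, nsmul_eq_mul, mul_comm]
      _ ≤ 2 * k := by gcongr; exact card_fibre_le hp g hg hj t
  · rw [Fintype.expect_eq_sum_div_card, ZMod.card, ker, sum_push]
    simp only [wadm, sum_ite_mem, univ_inter, sum_const, nsmul_eq_mul]
    field_simp
  · refine opBd_of_ft _ fun a ha => ?_
    have ha' : ¬ (p : ℤ) ∣ ((a.val : ℕ) : ℤ) := by
      intro h
      apply ha
      rw [← ZMod.natCast_zmod_val a]
      exact (ZMod.natCast_eq_zero_iff _ _).2 (by exact_mod_cast h)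
    have h1 := hC p g _ hp (by omega) hg hj ha'
    rw [← sum_std_evz, ← sum_add_sum_compl (adm pr p r d g)] at h1
    have h2 : ‖∑ n ∈ (adm pr p r d g)ᶜ, ZMod.stdAddChar (a * evz p g n)‖ ≤ k + 1 := by
      refine (norm_sum_le _ _).trans ?_
      simp only [norm_std, sum_const, nsmul_eq_mul, mul_one]
      exact_mod_cast hnot
    have h3 : ‖∑ n ∈ adm pr p r d g, ZMod.stdAddChar (a * evz p g n)‖ ≤
        (p : ℝ) ^ (1 - δ) + (k + 1) := by
      have := norm_sub_le (∑ n ∈ adm pr p r d g, ZMod.stdAddChar (a * evz p g n) +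
        ∑ n ∈ (adm pr p r d g)ᶜ, ZMod.stdAddChar (a * evz p g n))
        (∑ n ∈ (adm pr p r d g)ᶜ, ZMod.stdAddChar (a * evz p g n))
      rw [add_sub_cancel_right] at this
      linarith
    have h4 : ft (ker pr p r d g) a = (((p : ℝ) / (adm pr p r d g).card : ℝ) : ℂ) *
        ∑ n ∈ adm pr p r d g, ZMod.stdAddChar (a * evz p g n) := by
      rw [ker, ft_push, mul_sum, ← sum_add_sum_compl (adm pr p r d g),
        sum_eq_zero (s := (adm pr p r d g)ᶜ), add_zero]
      · exact sum_congr rfl fun n hn => by rw [wadm, if_pos hn]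
      · intro n hn
        rw [wadm, if_neg (mem_compl.1 hn)]; simp
    rw [h4, norm_mul, Complex.norm_real, Real.norm_eq_abs, abs_of_nonneg (by positivity)]
    have h5 : (4 : ℝ) ≤ (p : ℝ) ^ δ' := by
      have h6 : (4 : ℝ) ^ (1 / δ') ≤ p :=
        (Nat.le_ceil _).trans (by exact_mod_cast (by omega : ⌈(4 : ℝ) ^ (1 / δ')⌉₊ ≤ p))
      have h7 := Real.rpow_le_rpow (by positivity) h6 hδ'0.le
      rwa [← Real.rpow_mul (by norm_num), one_div_mul_cancel hδ'0.ne', Real.rpow_one] at h7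
    have h8 : (p : ℝ) * (p : ℝ) ^ (-δ') = (p : ℝ) ^ (1 - δ') := by
      rw [sub_eq_add_neg, Real.rpow_add hp0, Real.rpow_one]
    have h9 : 4 * (p : ℝ) ^ (1 - δ) ≤ (p : ℝ) ^ (1 - δ') := by
      calc 4 * (p : ℝ) ^ (1 - δ) ≤ (p : ℝ) ^ δ' * (p : ℝ) ^ (1 - δ) := by gcongr
        _ = (p : ℝ) ^ (δ' + (1 - δ)) := (Real.rpow_add hp0 _ _).symm
        _ ≤ _ := Real.rpow_le_rpow_of_exponent_le hp1 (by linarith)
    have h10 : 4 * ((k : ℝ) + 1) ≤ (p : ℝ) ^ (1 - δ') := by
      have h11 : (4 * ((k : ℝ) + 1)) ^ 2 ≤ p := by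
        have : ((16 * (k + 1) ^ 2 : ℕ) : ℝ) ≤ p := by exact_mod_cast (by omega)
        push_cast at this; nlinarith
      calc 4 * ((k : ℝ) + 1) ≤ √p := Real.le_sqrt_of_sq_le h11
        _ = (p : ℝ) ^ (1 / 2 : ℝ) := Real.sqrt_eq_rpow _
        _ ≤ _ := Real.rpow_le_rpow_of_exponent_le hp1 (by linarith)
    rw [h8]
    calc _ ≤ 2 * ((p : ℝ) ^ (1 - δ) + (k + 1)) := by gcongr
      _ ≤ _ := by linarith

theorem localExpStmt : LocalExpStmt := localExp_of completeStmt

end Crest.Agent.N41.Exp
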