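import Crest.Agent.N41.Exp.TypeII
import Crest.Agent.N41.Defs

/-!
# Row 41, module EXP, part 5 (helper98)
The Weyl inverse theorem over primes, progressions, and `WeylStmt`.
-/

set_option autoImplicit false

open Finset Polynomial

namespace Crest.Agent.N41.Exp

/-- the statement of the Weyl inverse theorem over primes -/
def PrimeWeylInv (k C : ℕ) : Prop :=
  ∀ P : ℝ[X], P.natDegree ≤ k → ∀ (a b : ℕ) (X D : ℝ), 2 ≤ D → 0 < X → (b : ℝ) ≤ X →
    Real.log b ≤ D →
    X ≤ D * ‖∑ n ∈ Ioc a b, ((ArithmeticFunction.vonMangoldt n : ℝ) : ℂ) * e (P.eval (n : ℝ))‖ →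
    Appr (P.coeff k) (D ^ C) (D ^ C / X ^ k)

theorem exists_primeWeylInv (k : ℕ) (hk : 1 ≤ k) : ∃ C, PrimeWeylInv k C := by
  obtain ⟨C, hW⟩ := exists_weylInv k hk
  obtain ⟨C', hV⟩ := exists_polyVin k
  set A : ℕ := 22 * ((C + 1) * (C' + 1)) + 2 with hA
  refine ⟨(2 * A + 5) * (C + k), ?_⟩
  intro P hP a b X D hD hX hb hL hS
  have hD1 : (1 : ℝ) ≤ D := by linarith
  rcases le_or_gt X (D ^ (A + 4)) with hsm | hbig
  · exact appr_small _ hD hX hsm (by nlinarith)
  -- the truncation parameter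
  set Y : ℝ := ((D ^ 2) ^ 11) ^ ((C + 1) * (C' + 1)) with hY
  have hY1 : 1 ≤ Y := one_le_pow₀ (one_le_pow₀ (one_le_pow₀ hD1))
  set U : ℕ := ⌈2 * Y⌉₊ with hU
  have hU1 : 2 * Y ≤ U := Nat.le_ceil _
  have hU2 : (U : ℝ) ≤ D ^ A := by
    have h1 : (U : ℝ) < 2 * Y + 1 := Nat.ceil_lt_add_one (by linarith)
    have h2 : Y = D ^ (22 * ((C + 1) * (C' + 1))) := by
      rw [hY, ← pow_mul, ← pow_mul, ← mul_assoc]; norm_num
    have h3 := const_mul_pow_le hD (c := 4) (a := 22 * ((C + 1) * (C' + 1))) (b := A) 2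
      (by norm_num) (by omega)
    rw [← h2] at h3
    linarith
  have hU3 : 1 ≤ U := by
    have : (1 : ℝ) ≤ U := by linarith
    exact_mod_cast this
  by_cases hI : ∃ d, 1 ≤ d ∧ d ≤ U * U ∧ ∃ I : Finset ℕ, Cvx I ∧ I ⊆ Ioc 0 b ∧
      X / D ^ (2 * A + 5) < ‖∑ m ∈ I, e (P.eval ((d * m : ℕ) : ℝ))‖
  · obtain ⟨d, hd1, hd2, I, hI1, hI2, hI3⟩ := hI
    have hD' : 2 ≤ D ^ (2 * A + 5) := hD.trans (le_self_pow₀ hD1 (by omega))
    have hc : (I.card : ℝ) ≤ X := by
      have := card_le_card hI2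
      rw [Nat.card_Ioc, Nat.sub_zero] at this
      exact le_trans (by exact_mod_cast this) hb
    have key := hW.nat (dil P d) (dil_natDegree hP _) I hI1 hD' hX hc (by
      rw [div_lt_iff₀ (by positivity), mul_comm] at hI3
      simp only [dil_eval]
      push_cast at hI3
      exact hI3.le)
    rw [dil_coeff, mul_comm, ← Nat.cast_pow] at key
    have hdk : (((d ^ k : ℕ) : ℝ)) ≤ (D ^ (2 * A + 5)) ^ k := by
      push_cast
      gcongr
      calc (d : ℝ) ≤ U * U := by exact_mod_cast hd2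
        _ ≤ D ^ A * D ^ A := by gcongr
        _ = D ^ (2 * A) := by ring
        _ ≤ _ := pow_le_pow_right₀ hD1 (by omega)
    refine (key.of_mul (Nat.one_le_pow _ _ hd1)).mono ?_ ?_
    · rw [pow_mul, pow_add (D ^ (2 * A + 5)), mul_comm]; gcongr
    · rw [pow_mul]
      exact div_le_div_of_nonneg_right (pow_le_pow_right₀ (by linarith) (by omega))
        (by positivity)
  push Not at hI
  have h1 := typeI_bound (fun n => e (P.eval (n : ℝ))) (fun n => (norm_e _).le) a b U hU3 hD1 hL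
    (B := X / D ^ (2 * A + 5)) (by positivity) hI
  have hsplit : ∑ n ∈ Ioc a b, ((ArithmeticFunction.vonMangoldt n : ℝ) : ℂ) * e (P.eval (n : ℝ)) =
      ∑ n ∈ Ioc a b, (((trunc ArithmeticFunction.vonMangoldt U +
        trunc muR U * ArithmeticFunction.log -
        (trunc muR U * trunc ArithmeticFunction.vonMangoldt U) * zeR) n : ℝ) : ℂ) *
          e (P.eval (n : ℝ)) +
      ∑ n ∈ Ioc a b, ((((muR - trunc muR U) * ((ArithmeticFunction.vonMangoldt -
        trunc ArithmeticFunction.vonMangoldt U) * zeR)) n : ℝ) : ℂ) * e (P.eval (n : ℝ)) := by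
    rw [← sum_add_distrib]
    refine sum_congr rfl fun n _ => ?_
    conv_lhs => rw [vaughan U]
    rw [ArithmeticFunction.add_apply, Complex.ofReal_add, add_mul]
  have hsmall : D * (U * D + 2 * (U * U * (D * (X / D ^ (2 * A + 5))))) ≤ X / 2 := by
    have e1 : D * (U * D) ≤ X / 4 := by
      have := const_mul_pow_le hD (c := 4) (a := A + 2) (b := A + 4) 2 (by norm_num) (by omega)
      calc D * (U * D) ≤ D * (D ^ A * D) := by gcongr
        _ = D ^ (A + 2) := by ring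
        _ ≤ X / 4 := by linarith
    have e2 : D * (2 * (U * U * (D * (X / D ^ (2 * A + 5))))) ≤ X / 4 := by
      have h8 := const_mul_pow_le hD (c := 8) (a := 2 * A + 2) (b := 2 * A + 5) 3 (by norm_num)
        (by omega)
      calc D * (2 * (U * U * (D * (X / D ^ (2 * A + 5)))))
          ≤ D * (2 * (D ^ A * D ^ A * (D * (X / D ^ (2 * A + 5))))) := by gcongr
        _ = X / 4 * (8 * D ^ (2 * A + 2) / D ^ (2 * A + 5)) := by field_simp; ring
        _ ≤ X / 4 * 1 := by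
            gcongr
            rwa [div_le_one (by positivity)]
        _ = X / 4 := mul_one _
    linarith
  rw [hsplit, sum_conv (muR - trunc muR U)] at hS
  have hD2 : 2 ≤ D ^ 2 := by nlinarith
  have hvm : ∀ n, |ArithmeticFunction.vonMangoldt n| = ArithmeticFunction.vonMangoldt n :=
    fun n => abs_of_nonneg ArithmeticFunction.vonMangoldt_nonneg
  have key := typeII hk hW hV P hP a b U (fun m => (muR - trunc muR U) m)
    (fun n => ((ArithmeticFunction.vonMangoldt - trunc ArithmeticFunction.vonMangoldt U) * zeR) n)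
    (D := D ^ 2) (X := X) hD2 hX hb (by nlinarith) hU1
    (fun m => (abs_sub_trunc_le _ _ _).trans (abs_muR_le m))
    (fun m hm => by rw [sub_trunc_apply, if_pos hm]) ?_
    (fun n hn => sub_trunc_mul_eq_zero _ _ U n hn) ?_
  · have hexp : Y ≤ D ^ ((2 * A + 5) * (C + k)) := by
      refine le_trans (by linarith : Y ≤ D ^ A) (pow_le_pow_right₀ hD1 (by nlinarith))
    exact key.mono hexp (div_le_div_of_nonneg_right hexp (by positivity))
  · intro n hn
    rw [mul_comm, mem_Ioc] at *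
    refine (abs_conv_le_log _ _ (fun m => ?_)
      (fun m => (abs_sub_trunc_le _ _ _).trans (hvm m).le) n).trans ?_
    · rcases Nat.eq_zero_or_pos m with rfl | hm
      · simp
      · rw [zeR_apply (by omega)]; simp
    · have : Real.log n ≤ Real.log b :=
        Real.log_le_log (by exact_mod_cast hn.1) (by exact_mod_cast hn.2)
      nlinarith
  · have h2 := hS.trans (mul_le_mul_of_nonneg_left (norm_add_le _ _) (by linarith))
    have h3 := mul_le_mul_of_nonneg_left h1 (by linarith : (0 : ℝ) ≤ D)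
    rw [mul_add] at h2
    set T := ‖∑ m ∈ Ioc 0 b, (((muR - trunc muR U) m : ℝ) : ℂ) *
      ∑ n ∈ (Ioc 0 b).filter (fun n => a < m * n ∧ m * n ≤ b),
        ((((ArithmeticFunction.vonMangoldt - trunc ArithmeticFunction.vonMangoldt U) * zeR) n
          : ℝ) : ℂ) * e (P.eval ((m * n : ℕ) : ℝ))‖ with hT
    have hT0 : 0 ≤ T := norm_nonneg _
    have h4 : X / 2 ≤ D * T := by linarith
    nlinarith

/-- orthogonality of additive characters -/
lemma sum_e_div (m : ℕ) (hm : 1 ≤ m) (t : ℤ) :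
    ∑ j ∈ range m, e ((j : ℝ) * ((t : ℝ) / m)) = if (m : ℤ) ∣ t then (m : ℂ) else 0 := by
  have hm0 : (m : ℝ) ≠ 0 := by positivity
  simp only [e_nat_mul]
  split_ifs with h
  · obtain ⟨s, rfl⟩ := h
    have : ((((m : ℤ) * s : ℤ) : ℝ)) / m = (s : ℝ) := by push_cast; field_simp
    rw [this, e_int]; simp
  · have h1 : e ((t : ℝ) / m) ≠ 1 := by
      intro h1
      have h2 := four_mul_le_norm_e_sub_one ((t : ℝ) / m)
      rw [h1, sub_self, norm_zero] at h2
      have h3 : (t : ℝ) / m - round ((t : ℝ) / m) = 0 :=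
        abs_eq_zero.1 (le_antisymm (by linarith) (abs_nonneg _))
      rw [sub_eq_zero, div_eq_iff hm0] at h3
      exact h ⟨round ((t : ℝ) / m), by rw [mul_comm]; exact_mod_cast h3⟩
    have h2 := mul_geom_sum (e ((t : ℝ) / m)) m
    rw [← e_nat_mul, mul_div_cancel₀ _ hm0, e_int, sub_self] at h2
    exact (mul_eq_zero.1 h2).resolve_left (sub_ne_zero.2 h1)

/-- a congruence condition is removed by changing the linear coefficient -/
lemma exists_linear_twist (I : Finset ℕ) (c : ℕ → ℂ) (P : ℝ[X]) (m ρ : ℕ) (hm : 1 ≤ m) :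
    ∃ γ : ℝ, ‖∑ n ∈ I.filter (fun n => n ≡ ρ [MOD m]), c n * e (P.eval (n : ℝ))‖ ≤
      ‖∑ n ∈ I, c n * e ((P + C γ * X).eval (n : ℝ))‖ := by
  have hm0 : (0 : ℝ) < m := by exact_mod_cast hm
  have h1 : (m : ℂ) * ∑ n ∈ I.filter (fun n => n ≡ ρ [MOD m]), c n * e (P.eval (n : ℝ)) =
      ∑ j ∈ range m, e (-((j : ℝ) * ρ / m)) *
        ∑ n ∈ I, c n * e ((P + C ((j : ℝ) / m) * X).eval (n : ℝ)) := by
    simp only [mul_sum, sum_filter]
    rw [sum_comm]
    refine sum_congr rfl fun n _ => ?_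
    have h2 := sum_e_div m hm ((n : ℤ) - ρ)
    have h3 : ∀ j ∈ range m, e (-((j : ℝ) * ρ / m)) *
        (c n * e ((P + C ((j : ℝ) / m) * X).eval (n : ℝ))) =
        e ((j : ℝ) * ((((n : ℤ) - ρ : ℤ) : ℝ) / m)) * (c n * e (P.eval (n : ℝ))) := by
      intro j _
      rw [eval_add, eval_mul, eval_C, eval_X, e_add]
      have : e ((j : ℝ) * ((((n : ℤ) - ρ : ℤ) : ℝ) / m)) =
          e (-((j : ℝ) * ρ / m)) * e ((j : ℝ) / m * n) := by
        rw [← e_add]; congr 1; push_cast; ring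
      rw [this]; ring
    rw [sum_congr rfl h3, ← sum_mul, h2]
    have h4 : (m : ℤ) ∣ (n : ℤ) - ρ ↔ n ≡ ρ [MOD m] := by
      rw [← Nat.modEq_iff_dvd]; exact ⟨Nat.ModEq.symm, Nat.ModEq.symm⟩
    by_cases h : n ≡ ρ [MOD m]
    · rw [if_pos h, if_pos (h4.2 h)]
    · rw [if_neg h, if_neg (mt h4.1 h)]; simp
  obtain ⟨j, _, hj⟩ : ∃ j ∈ range m,
      ‖∑ n ∈ I.filter (fun n => n ≡ ρ [MOD m]), c n * e (P.eval (n : ℝ))‖ ≤
      ‖∑ n ∈ I, c n * e ((P + C ((j : ℝ) / m) * X).eval (n : ℝ))‖ := by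
    refine exists_le_of_sum_le ⟨0, mem_range.2 hm⟩ ?_
    rw [sum_const, card_range, nsmul_eq_mul]
    have h5 := congrArg norm h1
    rw [norm_mul, Complex.norm_natCast] at h5
    rw [h5]
    refine (norm_sum_le _ _).trans (le_of_eq (sum_congr rfl fun j _ => ?_))
    rw [norm_mul, norm_e, one_mul]
  exact ⟨_, hj⟩

lemma twist_natDegree {P : ℝ[X]} {k : ℕ} (hk : 1 ≤ k) (hP : P.natDegree ≤ k) (γ : ℝ) :
    (P + C γ * X).natDegree ≤ k := by
  refine (natDegree_add_le _ _).trans (max_le hP ?_)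
  exact (natDegree_C_mul_le _ _).trans (natDegree_X_le.trans hk)

lemma twist_coeff (P : ℝ[X]) {k : ℕ} (hk : 2 ≤ k) (γ : ℝ) :
    (P + C γ * X).coeff k = P.coeff k := by
  rw [coeff_add, coeff_C_mul, coeff_X_of_ne_one (by omega), mul_zero, add_zero]

/-- **Module D1** of the skeleton. -/
theorem weylStmt (pr : Bool) : WeylStmt pr := by
  intro k hk
  obtain ⟨C₁, hW⟩ := exists_weylInv k (by omega)
  obtain ⟨C₂, hP⟩ := exists_primeWeylInv k (by omega)
  refine ⟨if pr = true then C₂ else C₁, ?_⟩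
  intro Q a b m ρ X δ hQ hm hδ hδ2 hX hb hlog hS
  have hD : 2 ≤ 1 / δ := by rw [le_div_iff₀ hδ]; linarith
  obtain ⟨γ, hγ⟩ := exists_linear_twist (Ioc a b) (fun n => (wt pr n : ℂ)) Q m ρ hm
  have hS' : X ≤ 1 / δ *
      ‖∑ n ∈ Ioc a b, (wt pr n : ℂ) * e ((Q + C γ * Polynomial.X).eval (n : ℝ))‖ := by
    rw [one_div, ← div_eq_inv_mul, le_div_iff₀ hδ, mul_comm]
    exact hS.trans hγ
  have hfin : Appr (Q.coeff k) ((1 / δ) ^ (if pr = true then C₂ else C₁))
      ((1 / δ) ^ (if pr = true then C₂ else C₁) / X ^ k) := by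
    rw [← twist_coeff Q hk γ]
    cases pr with
    | true =>
      simp only [wt, if_true] at hS' ⊢
      refine hP _ (twist_natDegree (by omega) hQ γ) a b X (1 / δ) hD (by linarith) hb ?_ hS'
      rcases Nat.eq_zero_or_pos b with rfl | hb0
      · simp; positivity
      · rw [le_div_iff₀ hδ, mul_comm]
        refine le_trans ?_ hlog
        gcongr
    | false =>
      simp only [wt, Bool.false_eq_true, if_false, Complex.ofReal_one, one_mul] at hS' ⊢
      refine hW.nat _ (twist_natDegree (by omega) hQ γ) (Ioc a b) (cvx_Ioc a b) hD (by linarith)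
        ?_ hS'
      rw [Nat.card_Ioc]
      exact le_trans (by exact_mod_cast Nat.sub_le b a) hb
  obtain ⟨q, hq1, hq2, z, hz⟩ := hfin
  exact ⟨q, z, hq1, hq2, hz⟩

end Crest.Agent.N41.Exp
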