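import Crest.Agent.N41.Defs
import Crest.Agent.PVc.R26.Psi

/-!
# Row 41, module D2 (helper98): primes in progressions with a power saving
-/

set_option autoImplicit false

open Finset

namespace Crest.Agent.N41.Exp

theorem psiAP (hL : ∀ (b : ℕ) [NeZero b] (χ : DirichletCharacter ℂ b) (s : ℂ),
    (7 : ℝ) / 8 < s.re → (χ = 1 → s ≠ 1) → DirichletCharacter.LFunction χ s ≠ 0) : PsiAP := by
  have hZ : Crest.Agent.R8.ZFStmt := by
    intro N _ χ s h1 h2
    exact hL N χ s h2 (fun h => h1.resolve_left (fun h' => h' h))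
  obtain ⟨δ, C, hδ, hδ', hC, h⟩ := Crest.Agent.R26.psi hZ
  refine ⟨δ, C, hδ, hC, fun m a y hm ha => ?_⟩
  have hm1 : (1 : ℝ) ≤ m := by exact_mod_cast hm
  have hl : 0 ≤ Real.log (2 * m) := Real.log_nonneg (by linarith)
  rcases Nat.eq_zero_or_pos y with rfl | hy
  · simp only [Ioc_self, filter_empty, sum_empty, Nat.cast_zero, zero_div, sub_self, abs_zero]
    positivity
  have hy' : (1 : ℝ) ≤ y := by exact_mod_cast hy
  have h1 := h m a y 0 hm ha hy'
  have e : ∀ n, Crest.Agent.R5.nit n 0 = 1 := fun n => by simp [Crest.Agent.R5.nit]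
  simp only [e, mul_one, Complex.ofReal_zero, zero_mul, sub_zero, Complex.cpow_one, one_mul,
    abs_zero, zero_add, Nat.floor_natCast] at h1
  rw [← Real.norm_eq_abs, ← Complex.norm_real, mul_comm (2 : ℝ)]
  push_cast
  exact h1

end Crest.Agent.N41.Exp
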