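import Crest.Agent.N41.Exp.Vaughan

/-!
# Row 41, module EXP, part 4 (helper98)
Type II sums.
-/

set_option autoImplicit false

open Finset Polynomial

namespace Crest.Agent.N41.Exp

/-- Cauchy–Schwarz for bilinear forms -/
lemma bilinear_cs (A B : Finset ℕ) (f g : ℕ → ℝ) (w : ℕ → ℕ → ℂ) {L : ℝ}
    (hf : ∀ m ∈ A, |f m| ≤ 1) (hg : ∀ n ∈ B, |g n| ≤ L) :
    ‖∑ m ∈ A, ((f m : ℝ) : ℂ) * ∑ n ∈ B, ((g n : ℝ) : ℂ) * w m n‖ ^ 2 ≤
      A.card * (L ^ 2 * ∑ n' ∈ B, ∑ n ∈ B, ‖∑ m ∈ A, w m n * (starRingEnd ℂ) (w m n')‖) := by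
  have h1 : ‖∑ m ∈ A, ((f m : ℝ) : ℂ) * ∑ n ∈ B, ((g n : ℝ) : ℂ) * w m n‖ ≤
      ∑ m ∈ A, ‖∑ n ∈ B, ((g n : ℝ) : ℂ) * w m n‖ := by
    refine (norm_sum_le _ _).trans (sum_le_sum fun m hm => ?_)
    rw [norm_mul, Complex.norm_real, Real.norm_eq_abs]
    exact mul_le_of_le_one_left (norm_nonneg _) (hf m hm)
  have h2 : ((∑ m ∈ A, ‖∑ n ∈ B, ((g n : ℝ) : ℂ) * w m n‖ ^ 2 : ℝ) : ℂ) =
      ∑ n' ∈ B, ∑ n ∈ B, ((g n * g n' : ℝ) : ℂ) *
        ∑ m ∈ A, w m n * (starRingEnd ℂ) (w m n') := by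
    push_cast
    have e1 : ∀ m ∈ A, ((‖∑ n ∈ B, ((g n : ℝ) : ℂ) * w m n‖ : ℝ) : ℂ) ^ 2 =
        ∑ n' ∈ B, ∑ n ∈ B, ((g n : ℂ) * g n') * (w m n * (starRingEnd ℂ) (w m n')) := by
      intro m _
      rw [← Complex.mul_conj', map_sum, sum_mul_sum, sum_comm]
      refine sum_congr rfl fun n' _ => sum_congr rfl fun n _ => ?_
      rw [map_mul, Complex.conj_ofReal]; ring
    rw [sum_congr rfl e1, sum_comm]
    refine sum_congr rfl fun n' _ => ?_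
    rw [sum_comm]
    refine sum_congr rfl fun n _ => ?_
    rw [mul_sum]
  have h3 : ∑ m ∈ A, ‖∑ n ∈ B, ((g n : ℝ) : ℂ) * w m n‖ ^ 2 ≤
      L ^ 2 * ∑ n' ∈ B, ∑ n ∈ B, ‖∑ m ∈ A, w m n * (starRingEnd ℂ) (w m n')‖ := by
    have h4 := congrArg norm h2
    rw [Complex.norm_real, Real.norm_eq_abs,
      abs_of_nonneg (sum_nonneg fun _ _ => by positivity)] at h4
    rw [h4, mul_sum]
    refine (norm_sum_le _ _).trans (sum_le_sum fun n' hn' => ?_)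
    rw [mul_sum]
    refine (norm_sum_le _ _).trans (sum_le_sum fun n hn => ?_)
    rw [norm_mul, Complex.norm_real, Real.norm_eq_abs, abs_mul, pow_two]
    gcongr
    · exact (abs_nonneg _).trans (hg n hn)
    · exact hg n hn
    · exact hg n' hn'
  calc _ ≤ (∑ m ∈ A, ‖∑ n ∈ B, ((g n : ℝ) : ℂ) * w m n‖) ^ 2 := by gcongr
    _ ≤ A.card * ∑ m ∈ A, ‖∑ n ∈ B, ((g n : ℝ) : ℂ) * w m n‖ ^ 2 := sq_sum_le_card_mul_sum_sq
    _ ≤ _ := by gcongr

/-- the dilated polynomial `P (c x)` -/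
noncomputable def dil (P : ℝ[X]) (c : ℝ) : ℝ[X] := P.comp (C c * X)

lemma dil_eval (P : ℝ[X]) (c x : ℝ) : (dil P c).eval x = P.eval (c * x) := by
  simp [dil, eval_comp]

lemma dil_coeff (P : ℝ[X]) (c : ℝ) (k : ℕ) : (dil P c).coeff k = P.coeff k * c ^ k :=
  comp_C_mul_X_coeff

lemma dil_natDegree {P : ℝ[X]} {k : ℕ} (hP : P.natDegree ≤ k) (c : ℝ) :
    (dil P c).natDegree ≤ k := by
  rw [natDegree_le_iff_coeff_eq_zero] at hP ⊢
  intro N hN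
  rw [dil_coeff, hP N hN, zero_mul]

/-- the end game of the type II estimate -/
lemma typeII_end {k C' : ℕ} (hk : 1 ≤ k) (hV : PolyVin k C') (C : ℕ) (β c : ℝ) (G : Finset ℕ)
    {D M N : ℝ} (hD : 2 ≤ D) (hM : D ^ ((C + 1) * (C' + 1)) ≤ M)
    (hN : D ^ ((C + 1) * (C' + 1)) ≤ N) (hG : ∀ n ∈ G, (n : ℝ) ≤ N) (hc : N ≤ D * G.card)
    (h : ∀ n ∈ G, Appr (β * (n : ℝ) ^ k - c) (D ^ C) (D ^ C / M ^ k)) :
    Appr β (D ^ ((C + 1) * (C' + 1))) (D ^ ((C + 1) * (C' + 1)) / (M * N) ^ k) := by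
  have hD1 : (1 : ℝ) ≤ D := by linarith
  have hM1 : 1 ≤ M := (one_le_pow₀ hD1).trans hM
  have hN1 : 1 ≤ N := (one_le_pow₀ hD1).trans hN
  obtain ⟨q, hq1, hq2, S, hS, hcS, hr⟩ := appr_pigeon G (fun n => β * (n : ℝ) ^ k - c)
    (one_le_pow₀ hD1) h
  have hD2 : 2 ≤ D ^ (C + 1) := hD.trans (le_self_pow₀ hD1 (by omega))
  have hprod : D ^ C * (D ^ (C + 1)) ^ C' ≤ D ^ ((C + 1) * (C' + 1)) := by
    rw [← pow_mul, ← pow_add]
    exact pow_le_pow_right₀ hD1 (by nlinarith)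
  have hcoeff : (Polynomial.C (q * β) * X ^ k - Polynomial.C (q * c) : ℝ[X]).coeff k = q * β := by
    rw [coeff_sub, coeff_C_mul_X_pow, if_pos rfl, coeff_C, if_neg (by omega), sub_zero]
  have key := hV (Polynomial.C (q * β) * X ^ k - Polynomial.C (q * c)) ?_
    (S.image (fun n : ℕ => (n : ℤ))) N (D ^ (C + 1)) (D ^ C / M ^ k) hD2 (by positivity)
    ?_ ?_ ?_ ?_ ?_
  · rw [hcoeff] at key
    refine (key.of_mul hq1).mono (le_trans (by gcongr) hprod) ?_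
    rw [mul_pow]
    calc (D ^ (C + 1)) ^ C' * (D ^ C / M ^ k) / N ^ k
        = D ^ C * (D ^ (C + 1)) ^ C' / (M ^ k * N ^ k) := by field_simp
      _ ≤ _ := by gcongr
  · refine (natDegree_sub_le _ _).trans (max_le (natDegree_C_mul_X_pow_le _ _) ?_)
    rw [natDegree_C]; omega
  · refine le_trans ?_ hN
    rw [← pow_mul]; exact pow_le_pow_right₀ hD1 (by nlinarith)
  · rw [div_mul_eq_mul_div, div_le_one (by positivity)]
    exact hprod.trans (hM.trans (le_self_pow₀ hM1 (by omega)))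
  · intro x hx y hy
    obtain ⟨x', _, rfl⟩ := mem_image.1 hx
    obtain ⟨y', hy', rfl⟩ := mem_image.1 hy
    have := hG y' (hS hy')
    push_cast
    linarith [Nat.cast_nonneg (α := ℝ) x']
  · rw [card_image_of_injective _ Nat.cast_injective]
    refine hc.trans ?_
    rw [pow_succ', mul_assoc]; gcongr
  · intro x hx
    obtain ⟨n, hn, rfl⟩ := mem_image.1 hx
    obtain ⟨r, hr'⟩ := hr n hn
    refine ⟨r, ?_⟩
    convert hr' using 3
    simp; ring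

/-- one dyadic block of a type II sum -/
lemma typeII_block {k C C' : ℕ} (hk : 1 ≤ k) (hW : WeylInv k C) (hV : PolyVin k C')
    (P : ℝ[X]) (hP : P.natDegree ≤ k) (a b : ℕ) (A B : Finset ℕ) (hA : Cvx A) (f g : ℕ → ℝ)
    {D M N : ℝ} (hD : 2 ≤ D) (hM : (D ^ 11) ^ ((C + 1) * (C' + 1)) ≤ M)
    (hN : (D ^ 11) ^ ((C + 1) * (C' + 1)) ≤ N) (hAc : (A.card : ℝ) ≤ M) (hBc : (B.card : ℝ) ≤ N)
    (hB : ∀ n ∈ B, (n : ℝ) ≤ N) (hf : ∀ m ∈ A, |f m| ≤ 1) (hg : ∀ n ∈ B, |g n| ≤ D)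
    (hT : M * N ≤ 3 * D ^ 2 * ‖∑ m ∈ A, ((f m : ℝ) : ℂ) * ∑ n ∈ B, ((g n : ℝ) : ℂ) *
      (if a < m * n ∧ m * n ≤ b then e (P.eval ((m * n : ℕ) : ℝ)) else 0)‖) :
    Appr (P.coeff k) ((D ^ 11) ^ ((C + 1) * (C' + 1)))
      ((D ^ 11) ^ ((C + 1) * (C' + 1)) / (M * N) ^ k) := by
  have hD1 : (1 : ℝ) ≤ D := by linarith
  have hD11 : 2 ≤ D ^ 11 := hD.trans (le_self_pow₀ hD1 (by omega))
  have hM1 : 1 ≤ M := (one_le_pow₀ (by linarith)).trans hM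
  have hN1 : 1 ≤ N := (one_le_pow₀ (by linarith)).trans hN
  set w : ℕ → ℕ → ℂ := fun m n =>
    if a < m * n ∧ m * n ≤ b then e (P.eval ((m * n : ℕ) : ℝ)) else 0 with hw
  set τ : ℕ → ℕ → ℝ := fun n' n => ‖∑ m ∈ A, w m n * (starRingEnd ℂ) (w m n')‖ with hτ
  have hτeq : ∀ n' n, τ n' n = ‖∑ m ∈ (A.filter (fun m => a < n * m ∧ n * m ≤ b)).filter
      (fun m => a < n' * m ∧ n' * m ≤ b), e ((dil P n - dil P n').eval (m : ℝ))‖ := by
    intro n' n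
    simp only [hτ, hw, sum_filter]
    congr 1
    refine sum_congr rfl fun m _ => ?_
    rw [mul_comm m n, mul_comm m n']
    split_ifs
    · rw [eval_sub, dil_eval, dil_eval, e_sub]; push_cast; rfl
    · simp
    · simp
    · simp
  have hτc : ∀ n' n, (((A.filter (fun m => a < n * m ∧ n * m ≤ b)).filter
      (fun m => a < n' * m ∧ n' * m ≤ b)).card : ℝ) ≤ M := fun n' n =>
    le_trans (by exact_mod_cast (card_filter_le _ _).trans (card_filter_le _ _)) hAc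
  have hcs := bilinear_cs A B f g w hf hg
  have hsum : N * (M * N / (9 * D ^ 6)) ≤ ∑ n' ∈ B, ∑ n ∈ B, τ n' n := by
    have h0 : 0 ≤ ∑ n' ∈ B, ∑ n ∈ B, τ n' n :=
      sum_nonneg fun _ _ => sum_nonneg fun _ _ => norm_nonneg _
    have h1 : (M * N) ^ 2 ≤ (3 * D ^ 2) ^ 2 * (M * (D ^ 2 * ∑ n' ∈ B, ∑ n ∈ B, τ n' n)) := by
      calc (M * N) ^ 2 ≤ (3 * D ^ 2 * ‖∑ m ∈ A, ((f m : ℝ) : ℂ) *
            ∑ n ∈ B, ((g n : ℝ) : ℂ) * w m n‖) ^ 2 := by gcongr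
        _ = (3 * D ^ 2) ^ 2 * ‖∑ m ∈ A, ((f m : ℝ) : ℂ) *
            ∑ n ∈ B, ((g n : ℝ) : ℂ) * w m n‖ ^ 2 := by rw [mul_pow]
        _ ≤ _ := by
            gcongr
            exact hcs.trans (by gcongr)
    rw [← mul_div_assoc, div_le_iff₀ (by positivity)]
    have h2 : M * (N * (M * N)) ≤ M * ((∑ n' ∈ B, ∑ n ∈ B, τ n' n) * (9 * D ^ 6)) := by
      nlinarith
    exact le_of_mul_le_mul_left h2 (by linarith)
  have hBne : B.Nonempty := by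
    rw [nonempty_iff_ne_empty]
    rintro rfl
    have : 0 < N * (M * N / (9 * D ^ 6)) := by positivity
    simp only [sum_empty] at hsum
    linarith
  obtain ⟨n', _, hn'⟩ : ∃ n' ∈ B, M * N / (9 * D ^ 6) ≤ ∑ n ∈ B, τ n' n := by
    refine exists_le_of_sum_le hBne (le_trans ?_ hsum)
    rw [sum_const, nsmul_eq_mul]; gcongr
  have hpop := popular B (τ n') (B := M) (t := M / (18 * D ^ 6)) (by positivity) hn'
    (fun n _ => by rw [hτeq]; exact (norm_sum_e_le _ _).trans (hτc n' n)) hBc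
    (le_of_eq (by field_simp; ring))
  have h18 : 18 * D ^ 6 ≤ D ^ 11 := const_mul_pow_le hD 5 (by norm_num) (by norm_num)
  refine typeII_end hk hV C (P.coeff k) (P.coeff k * (n' : ℝ) ^ k)
    (B.filter (fun n => M / (18 * D ^ 6) ≤ τ n' n)) hD11 hM hN
    (fun n hn => hB n (mem_filter.1 hn).1) ?_ ?_
  · rw [div_div, div_le_iff₀ (by positivity)] at hpop
    have h2 : M * N ≤ M * (18 * D ^ 6 *
        ((B.filter (fun n => M / (18 * D ^ 6) ≤ τ n' n)).card : ℝ)) := by nlinarith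
    exact (le_of_mul_le_mul_left h2 (by linarith)).trans (by gcongr)
  · intro n hn
    have h1 := (mem_filter.1 hn).2
    rw [div_le_iff₀ (by positivity), hτeq] at h1
    have := hW.nat (dil P n - dil P n') ((natDegree_sub_le _ _).trans
      (max_le (dil_natDegree hP _) (dil_natDegree hP _))) _
      ((hA.filter_mul a b n).filter_mul a b n') hD11 (by linarith) (hτc n' n)
      (h1.trans (by rw [mul_comm]; gcongr))
    rwa [coeff_sub, dil_coeff, dil_coeff] at this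

lemma natLog_le {b : ℕ} {D : ℝ} (hD : 2 ≤ D) (hb : 1 ≤ b) (hL : Real.log b ≤ D) :
    ((Nat.log 2 b + 1 : ℕ) : ℝ) ≤ 3 * D := by
  have h1 : 2 ^ Nat.log 2 b ≤ b := Nat.pow_log_le_self 2 (by omega)
  have h2 : ((2 : ℝ)) ^ Nat.log 2 b ≤ b := by exact_mod_cast h1
  have h3 := Real.log_le_log (by positivity) h2
  rw [Real.log_pow] at h3
  have h4 := Real.log_two_gt_d9
  have h5 : (0 : ℝ) ≤ Nat.log 2 b := Nat.cast_nonneg _
  push_cast
  nlinarith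

/-- **Type II estimate** in inverse form -/
lemma typeII {k C C' : ℕ} (hk : 1 ≤ k) (hW : WeylInv k C) (hV : PolyVin k C')
    (P : ℝ[X]) (hP : P.natDegree ≤ k) (a b U : ℕ) (f g : ℕ → ℝ) {D X : ℝ} (hD : 2 ≤ D)
    (hX : 0 < X) (hb : (b : ℝ) ≤ X) (hL : Real.log b ≤ D)
    (hU : 2 * (D ^ 11) ^ ((C + 1) * (C' + 1)) ≤ U) (hf : ∀ m, |f m| ≤ 1)
    (hfU : ∀ m, m ≤ U → f m = 0) (hg : ∀ n ∈ Ioc 0 b, |g n| ≤ D) (hgU : ∀ n, n ≤ U → g n = 0)
    (hT : X ≤ D * ‖∑ m ∈ Ioc 0 b, ((f m : ℝ) : ℂ) *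
      ∑ n ∈ (Ioc 0 b).filter (fun n => a < m * n ∧ m * n ≤ b),
        ((g n : ℝ) : ℂ) * e (P.eval ((m * n : ℕ) : ℝ))‖) :
    Appr (P.coeff k) ((D ^ 11) ^ ((C + 1) * (C' + 1)))
      ((D ^ 11) ^ ((C + 1) * (C' + 1)) / X ^ k) := by
  set F : ℕ → ℂ := fun m => ((f m : ℝ) : ℂ) *
      ∑ n ∈ (Ioc 0 b).filter (fun n => a < m * n ∧ m * n ≤ b),
        ((g n : ℝ) : ℂ) * e (P.eval ((m * n : ℕ) : ℝ)) with hF
  have hb1 : 1 ≤ b := by
    by_contra h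
    obtain rfl : b = 0 := by omega
    simp at hT; linarith
  have hmaps : ∀ m ∈ Ioc 0 b, Nat.log 2 m ∈ range (Nat.log 2 b + 1) := fun m hm =>
    mem_range.2 (Nat.lt_succ_of_le (Nat.log_mono_right (mem_Ioc.1 hm).2))
  rw [← sum_fiberwise_of_maps_to hmaps] at hT
  have hJ := natLog_le hD hb1 hL
  obtain ⟨j, _, hj⟩ : ∃ j ∈ range (Nat.log 2 b + 1), X / (3 * D ^ 2) ≤
      ‖∑ m ∈ (Ioc 0 b).filter (fun m => Nat.log 2 m = j), F m‖ := by
    refine exists_le_of_sum_le ⟨0, by simp⟩ (le_trans ?_ (norm_sum_le _ _))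
    rw [sum_const, nsmul_eq_mul, card_range]
    calc ((Nat.log 2 b + 1 : ℕ) : ℝ) * (X / (3 * D ^ 2)) ≤ 3 * D * (X / (3 * D ^ 2)) := by gcongr
      _ = X / D := by field_simp
      _ ≤ _ := by rw [div_le_iff₀ (by linarith), mul_comm]; exact hT
  set A := (Ioc 0 b).filter (fun m => Nat.log 2 m = j) with hA
  have hAmem : ∀ m ∈ A, 2 ^ j ≤ m ∧ m < 2 * 2 ^ j := by
    intro m hm
    rw [hA, mem_filter, mem_Ioc] at hm
    have h1 := Nat.pow_log_le_self 2 (x := m) (by omega)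
    have h2 := Nat.lt_pow_succ_log_self (b := 2) (by norm_num) m
    rw [hm.2] at h1 h2
    exact ⟨h1, by rw [pow_succ] at h2; omega⟩
  have hAcvx : Cvx A := by
    intro x hx z hz y h1 h2
    rw [hA, mem_filter] at hx hz ⊢
    refine ⟨cvx_Ioc 0 b x hx.1 z hz.1 y h1 h2, le_antisymm ?_ ?_⟩
    · rw [← hz.2]; exact Nat.log_mono_right h2
    · rw [← hx.2]; exact Nat.log_mono_right h1
  set B := (Ioc 0 b).filter (fun n => U < n ∧ 2 ^ j * n ≤ b) with hB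
  have hM0 : (0 : ℝ) < ((2 ^ j : ℕ) : ℝ) := by positivity
  have hBle : ∀ n ∈ B, (n : ℝ) ≤ X / ((2 ^ j : ℕ) : ℝ) := by
    intro n hn
    rw [le_div_iff₀ hM0, mul_comm]
    exact le_trans (by exact_mod_cast (mem_filter.1 hn).2.2) hb
  have hFeq : ∀ m ∈ A, F m = ((f m : ℝ) : ℂ) * ∑ n ∈ B, ((g n : ℝ) : ℂ) *
      (if a < m * n ∧ m * n ≤ b then e (P.eval ((m * n : ℕ) : ℝ)) else 0) := by
    intro m hm
    simp only [hF, hB, sum_filter]
    congr 1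
    refine sum_congr rfl fun n _ => ?_
    by_cases h1 : a < m * n ∧ m * n ≤ b
    · rw [if_pos h1, if_pos h1]
      split_ifs with h2
      · rfl
      · have h3 : 2 ^ j * n ≤ b := le_trans (Nat.mul_le_mul_right n (hAmem m hm).1) h1.2
        rw [hgU n (by by_contra h; exact h2 ⟨by omega, h3⟩)]; simp
    · rw [if_neg h1, if_neg h1]; simp
  rw [sum_congr rfl hFeq] at hj
  have hpos : 0 < X / (3 * D ^ 2) := by positivity
  have hMU : U < 2 * 2 ^ j := by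
    by_contra h
    rw [sum_eq_zero (fun m hm => by rw [hfU m (by have := (hAmem m hm).2; omega)]; simp)] at hj
    simp only [norm_zero] at hj
    linarith
  have hBne : B.Nonempty := by
    rw [nonempty_iff_ne_empty]
    intro h
    rw [h] at hj
    simp only [sum_empty, mul_zero, sum_const_zero, norm_zero] at hj
    linarith
  obtain ⟨n₀, hn₀⟩ := hBne
  have hpw : (0 : ℝ) ≤ (D ^ 11) ^ ((C + 1) * (C' + 1)) := by positivity
  have hXeq : ((2 ^ j : ℕ) : ℝ) * (X / ((2 ^ j : ℕ) : ℝ)) = X := by field_simp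
  have key := typeII_block hk hW hV P hP a b A B hAcvx f g (M := ((2 ^ j : ℕ) : ℝ))
    (N := X / ((2 ^ j : ℕ) : ℝ)) hD ?_ ?_ ?_ ?_ hBle (fun m _ => hf m)
    (fun n hn => hg n (mem_filter.1 hn).1) ?_
  · rwa [hXeq] at key
  · have : (U : ℝ) ≤ 2 * ((2 ^ j : ℕ) : ℝ) := by exact_mod_cast hMU.le
    linarith
  · have h1 : (U : ℝ) ≤ n₀ := by exact_mod_cast (mem_filter.1 hn₀).2.1.le
    linarith [hBle n₀ hn₀]
  · have : A ⊆ Ico (2 ^ j) (2 * 2 ^ j) := fun m hm => mem_Ico.2 (hAmem m hm)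
    have h1 := card_le_card this
    rw [Nat.card_Ico] at h1
    exact_mod_cast (by omega : A.card ≤ 2 ^ j)
  · have : B ⊆ Ioc 0 ⌊X / ((2 ^ j : ℕ) : ℝ)⌋₊ := fun n hn =>
      mem_Ioc.2 ⟨(mem_Ioc.1 (mem_filter.1 hn).1).1, Nat.le_floor (hBle n hn)⟩
    have h1 := card_le_card this
    rw [Nat.card_Ioc, Nat.sub_zero] at h1
    exact le_trans (by exact_mod_cast h1) (Nat.floor_le (by positivity))
  · rw [hXeq]
    rw [div_le_iff₀ (by positivity), mul_comm] at hj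
    exact hj

end Crest.Agent.N41.Exp
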