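import Crest.Agent.N41.Exp.Weyl

/-!
# Row 41, module EXP, part 3 (helper98)
Convex sets of naturals, Vaughan's identity and type I sums.
-/

set_option autoImplicit false

open Finset Polynomial

namespace Crest.Agent.N41.Exp

/-- an interval of natural numbers -/
def Cvx (I : Finset ℕ) : Prop := ∀ x ∈ I, ∀ z ∈ I, ∀ y, x ≤ y → y ≤ z → y ∈ I

lemma cvx_Ioc (a b : ℕ) : Cvx (Ioc a b) := by
  intro x hx z hz y h1 h2
  rw [mem_Ioc] at *; omega

lemma cvx_Ico (a b : ℕ) : Cvx (Ico a b) := by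
  intro x hx z hz y h1 h2
  rw [mem_Ico] at *; omega

lemma Cvx.filter_mul {I : Finset ℕ} (hI : Cvx I) (a b d : ℕ) :
    Cvx (I.filter (fun m => a < d * m ∧ d * m ≤ b)) := by
  intro x hx z hz y h1 h2
  rw [mem_filter] at *
  exact ⟨hI x hx.1 z hz.1 y h1 h2, lt_of_lt_of_le hx.2.1 (Nat.mul_le_mul_left d h1),
    le_trans (Nat.mul_le_mul_left d h2) hz.2.2⟩

lemma Cvx.filter_lt {I : Finset ℕ} (hI : Cvx I) (j : ℕ) : Cvx (I.filter (fun m => j < m)) := by
  intro x hx z hz y h1 h2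
  rw [mem_filter] at *
  exact ⟨hI x hx.1 z hz.1 y h1 h2, by omega⟩

/-- the Weyl inverse theorem over an interval of naturals -/
lemma WeylInv.nat {k C : ℕ} (hW : WeylInv k C) (P : ℝ[X]) (hP : P.natDegree ≤ k)
    (I : Finset ℕ) (hI : Cvx I) {N D : ℝ} (hD : 2 ≤ D) (hN : 0 < N) (hc : (I.card : ℝ) ≤ N)
    (hS : N ≤ D * ‖∑ n ∈ I, e (P.eval (n : ℝ))‖) :
    Appr (P.coeff k) (D ^ C) (D ^ C / N ^ k) := by
  rcases I.eq_empty_or_nonempty with rfl | hne
  · simp at hS; linarith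
  have hIeq : I = Icc (I.min' hne) (I.max' hne) := by
    ext x
    rw [mem_Icc]
    exact ⟨fun hx => ⟨I.min'_le x hx, I.le_max' x hx⟩,
      fun hx => hI _ (I.min'_mem hne) _ (I.max'_mem hne) x hx.1 hx.2⟩
  obtain ⟨lo, hi, hle, rfl⟩ : ∃ lo hi : ℕ, lo ≤ hi ∧ I = Icc lo hi :=
    ⟨_, _, I.min'_le _ (I.max'_mem hne), hIeq⟩
  refine hW P hP ((lo : ℤ) - 1) hi N D hD hN ?_ ?_
  · rw [Nat.card_Icc, Nat.cast_sub (by omega)] at hc
    push_cast at hc ⊢; linarith
  · convert hS using 3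
    symm
    refine sum_bij' (fun n _ => (n : ℤ)) (fun n _ => n.toNat) ?_ ?_ ?_ ?_ ?_
    · intro n hn; simp only [mem_Icc, mem_Ioc] at hn ⊢; omega
    · intro n hn; simp only [mem_Icc, mem_Ioc] at hn ⊢; omega
    · intro n _; simp
    · intro n hn; simp only [mem_Ioc] at hn; omega
    · intro n _; simp

/-- truncation of an arithmetic function -/
def trunc (f : ArithmeticFunction ℝ) (U : ℕ) : ArithmeticFunction ℝ :=
  ⟨fun n => if n ≤ U then f n else 0, by simp⟩

lemma trunc_apply (f : ArithmeticFunction ℝ) (U n : ℕ) :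
    trunc f U n = if n ≤ U then f n else 0 := rfl

/-- the Möbius function with real values -/
noncomputable def muR : ArithmeticFunction ℝ := (ArithmeticFunction.moebius : ArithmeticFunction ℝ)

/-- the constant function one on positive integers, with real values -/
noncomputable def zeR : ArithmeticFunction ℝ := (ArithmeticFunction.zeta : ArithmeticFunction ℝ)

lemma abs_muR_le (n : ℕ) : |muR n| ≤ 1 := by
  unfold muR
  rw [ArithmeticFunction.intCoe_apply]
  exact_mod_cast ArithmeticFunction.abs_moebius_le_one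

lemma zeR_apply {n : ℕ} (hn : n ≠ 0) : zeR n = 1 := by
  unfold zeR
  rw [ArithmeticFunction.natCoe_apply, ArithmeticFunction.zeta_apply_ne hn, Nat.cast_one]

/-- **Vaughan's identity** -/
lemma vaughan (U : ℕ) : ArithmeticFunction.vonMangoldt =
    trunc ArithmeticFunction.vonMangoldt U + trunc muR U * ArithmeticFunction.log -
      (trunc muR U * trunc ArithmeticFunction.vonMangoldt U) * zeR +
      (muR - trunc muR U) *
        ((ArithmeticFunction.vonMangoldt - trunc ArithmeticFunction.vonMangoldt U) * zeR) := by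
  have h1 : muR * zeR = 1 := ArithmeticFunction.coe_moebius_mul_coe_zeta
  have h2 : ArithmeticFunction.vonMangoldt * zeR = ArithmeticFunction.log :=
    ArithmeticFunction.vonMangoldt_mul_zeta
  rw [← h2]
  linear_combination
    (trunc ArithmeticFunction.vonMangoldt U - ArithmeticFunction.vonMangoldt) * h1

/-- sums of a Dirichlet convolution -/
lemma sum_conv (f g : ArithmeticFunction ℝ) (z : ℕ → ℂ) (a b : ℕ) :
    ∑ n ∈ Ioc a b, (((f * g) n : ℝ) : ℂ) * z n =
      ∑ d ∈ Ioc 0 b, ((f d : ℝ) : ℂ) *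
        ∑ m ∈ (Ioc 0 b).filter (fun m => a < d * m ∧ d * m ≤ b), ((g m : ℝ) : ℂ) * z (d * m) := by
  simp only [ArithmeticFunction.mul_apply, Complex.ofReal_sum, sum_mul, mul_sum]
  rw [sum_sigma', sum_sigma']
  refine sum_bij' (fun p _ => ⟨p.2.1, p.2.2⟩) (fun p _ => ⟨p.1 * p.2, (p.1, p.2)⟩) ?_ ?_ ?_ ?_ ?_
  · rintro ⟨n, d, m⟩ hp
    simp only [mem_sigma, mem_Ioc, mem_filter, Nat.mem_divisorsAntidiagonal] at hp ⊢
    obtain ⟨⟨h1, h2⟩, h3, h4⟩ := hp
    subst h3
    have hd : 0 < d := Nat.pos_of_ne_zero (by rintro rfl; simp at h4)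
    have hm : 0 < m := Nat.pos_of_ne_zero (by rintro rfl; simp at h4)
    exact ⟨⟨hd, le_trans (Nat.le_mul_of_pos_right d hm) h2⟩,
      ⟨hm, le_trans (Nat.le_mul_of_pos_left m hd) h2⟩, h1, h2⟩
  · rintro ⟨d, m⟩ hp
    simp only [mem_sigma, mem_Ioc, mem_filter, Nat.mem_divisorsAntidiagonal] at hp ⊢
    obtain ⟨⟨h1, _⟩, ⟨h3, _⟩, h5, h6⟩ := hp
    exact ⟨⟨h5, h6⟩, trivial, by omega⟩
  · rintro ⟨n, d, m⟩ hp
    simp only [mem_sigma, Nat.mem_divisorsAntidiagonal] at hp
    obtain ⟨_, h3, _⟩ := hp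
    subst h3; rfl
  · rintro ⟨d, m⟩ _
    rfl
  · rintro ⟨n, d, m⟩ hp
    simp only [mem_sigma, Nat.mem_divisorsAntidiagonal] at hp
    obtain ⟨_, h3, _⟩ := hp
    subst h3
    push_cast; ring

lemma log_eq_sum (m : ℕ) (hm : 1 ≤ m) :
    Real.log m = ∑ j ∈ Ico 1 m, (Real.log ((j + 1 : ℕ) : ℝ) - Real.log j) := by
  induction m, hm using Nat.le_induction with
  | base => simp
  | succ m hm ih => rw [sum_Ico_succ_top hm, ← ih]; ring

/-- partial summation against the logarithm -/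
lemma abel_log (z : ℕ → ℂ) {b : ℕ} (I : Finset ℕ) (hIb : I ⊆ Ioc 0 b) {B : ℝ}
    (hB : ∀ j, ‖∑ m ∈ I.filter (fun m => j < m), z m‖ ≤ B) :
    ‖∑ m ∈ I, ((Real.log m : ℝ) : ℂ) * z m‖ ≤ Real.log b * B := by
  rcases Nat.eq_zero_or_pos b with rfl | hb
  · have : I = ∅ := by simpa using hIb
    subst this; simp
  have h1 : ∑ m ∈ I, ((Real.log m : ℝ) : ℂ) * z m = ∑ j ∈ Ico 1 b,
      ((Real.log ((j + 1 : ℕ) : ℝ) - Real.log j : ℝ) : ℂ) *
        ∑ m ∈ I.filter (fun m => j < m), z m := by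
    simp only [mul_sum, sum_filter]
    rw [sum_comm]
    refine sum_congr rfl fun m hm => ?_
    have hm' := mem_Ioc.1 (hIb hm)
    rw [log_eq_sum m hm'.1, Complex.ofReal_sum, sum_mul]
    have h2 : Ico 1 m = (Ico 1 b).filter (fun j => j < m) := by
      ext j; simp only [mem_Ico, mem_filter]; omega
    rw [h2, sum_filter]
    refine sum_congr rfl fun j _ => ?_
    split_ifs <;> simp
  rw [h1, log_eq_sum b hb, sum_mul]
  refine (norm_sum_le _ _).trans (sum_le_sum fun j hj => ?_)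
  have hj1 : (1 : ℝ) ≤ j := by exact_mod_cast (mem_Ico.1 hj).1
  have h3 : 0 ≤ Real.log ((j + 1 : ℕ) : ℝ) - Real.log j :=
    sub_nonneg.2 (Real.log_le_log (by linarith) (by push_cast; linarith))
  rw [norm_mul, Complex.norm_real, Real.norm_eq_abs, abs_of_nonneg h3]
  exact mul_le_mul_of_nonneg_left (hB j) h3

lemma short_sum_le (f : ℕ → ℝ) (S : ℕ → ℂ) (b W : ℕ) {L B : ℝ} (hL : 0 ≤ L) (hB0 : 0 ≤ B)
    (hf : ∀ d ∈ Ioc 0 b, |f d| ≤ L) (hfW : ∀ d, W < d → f d = 0)
    (hS : ∀ d, 1 ≤ d → d ≤ W → ‖S d‖ ≤ B) :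
    ‖∑ d ∈ Ioc 0 b, ((f d : ℝ) : ℂ) * S d‖ ≤ W * (L * B) := by
  have h1 : ∑ d ∈ Ioc 0 b, ((f d : ℝ) : ℂ) * S d =
      ∑ d ∈ (Ioc 0 b).filter (fun d => d ≤ W), ((f d : ℝ) : ℂ) * S d := by
    rw [sum_filter]
    refine sum_congr rfl fun d _ => ?_
    split_ifs with h
    · rfl
    · rw [hfW d (by omega)]; simp
  rw [h1]
  refine (norm_sum_le _ _).trans ?_
  calc ∑ d ∈ (Ioc 0 b).filter (fun d => d ≤ W), ‖((f d : ℝ) : ℂ) * S d‖
      ≤ ∑ _d ∈ (Ioc 0 b).filter (fun d => d ≤ W), L * B := by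
        refine sum_le_sum fun d hd => ?_
        rw [mem_filter] at hd
        rw [norm_mul, Complex.norm_real, Real.norm_eq_abs]
        exact mul_le_mul (hf d hd.1) (hS d (mem_Ioc.1 hd.1).1 hd.2) (norm_nonneg _) hL
    _ = ((Ioc 0 b).filter (fun d => d ≤ W)).card * (L * B) := by rw [sum_const, nsmul_eq_mul]
    _ ≤ _ := by
        gcongr
        calc ((Ioc 0 b).filter (fun d => d ≤ W)).card ≤ (Ioc 0 W).card := by
              refine card_le_card fun d hd => ?_
              rw [mem_filter, mem_Ioc] at hd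
              exact mem_Ioc.2 ⟨hd.1.1, hd.2⟩
          _ = W := by simp

/-- convolutions with `Λ`-like pieces are bounded by the logarithm -/
lemma abs_conv_le_log (f g : ArithmeticFunction ℝ) (hf : ∀ n, |f n| ≤ 1)
    (hg : ∀ n, |g n| ≤ ArithmeticFunction.vonMangoldt n) (n : ℕ) :
    |(f * g) n| ≤ Real.log n := by
  rw [ArithmeticFunction.mul_apply, ← ArithmeticFunction.vonMangoldt_sum,
    ← Nat.sum_divisorsAntidiagonal' (fun _ d => ArithmeticFunction.vonMangoldt d)]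
  refine (abs_sum_le_sum_abs _ _).trans (sum_le_sum fun p _ => ?_)
  rw [abs_mul]
  calc |f p.1| * |g p.2| ≤ 1 * ArithmeticFunction.vonMangoldt p.2 :=
        mul_le_mul (hf _) (hg _) (abs_nonneg _) zero_le_one
    _ = _ := one_mul _

lemma abs_trunc_le (f : ArithmeticFunction ℝ) (U n : ℕ) : |trunc f U n| ≤ |f n| := by
  rw [trunc_apply]; split_ifs <;> simp

lemma sub_trunc_apply (f : ArithmeticFunction ℝ) (U n : ℕ) :
    (f - trunc f U) n = if n ≤ U then 0 else f n := by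
  rw [sub_eq_add_neg, ArithmeticFunction.add_apply, ArithmeticFunction.neg_apply, trunc_apply]
  split_ifs <;> simp

lemma abs_sub_trunc_le (f : ArithmeticFunction ℝ) (U n : ℕ) : |(f - trunc f U) n| ≤ |f n| := by
  rw [sub_trunc_apply]; split_ifs <;> simp

lemma trunc_mul_trunc_eq_zero (f g : ArithmeticFunction ℝ) (U d : ℕ) (hd : U * U < d) :
    (trunc f U * trunc g U) d = 0 := by
  rw [ArithmeticFunction.mul_apply]
  refine sum_eq_zero fun p hp => ?_
  rw [trunc_apply, trunc_apply]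
  have h1 := (Nat.mem_divisorsAntidiagonal.1 hp).1
  split_ifs with h2 h3
  · exact absurd (h1 ▸ Nat.mul_le_mul h2 h3) (by omega)
  · simp
  · simp
  · simp

lemma sub_trunc_mul_eq_zero (f g : ArithmeticFunction ℝ) (U n : ℕ) (hn : n ≤ U) :
    ((f - trunc f U) * g) n = 0 := by
  rw [ArithmeticFunction.mul_apply]
  refine sum_eq_zero fun p hp => ?_
  have h1 := Nat.mem_divisorsAntidiagonal.1 hp
  have h2 : p.1 ≤ n := Nat.le_of_dvd (by omega) (Dvd.intro _ h1.1)
  rw [sub_trunc_apply, if_pos (by omega), zero_mul]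

/-- the three "type I" pieces of Vaughan's identity -/
lemma typeI_bound (z : ℕ → ℂ) (hz : ∀ n, ‖z n‖ ≤ 1) (a b U : ℕ) (hU : 1 ≤ U) {L B : ℝ}
    (hL1 : 1 ≤ L) (hL : Real.log b ≤ L) (hB0 : 0 ≤ B)
    (hB : ∀ d, 1 ≤ d → d ≤ U * U → ∀ I : Finset ℕ, Cvx I → I ⊆ Ioc 0 b →
      ‖∑ m ∈ I, z (d * m)‖ ≤ B) :
    ‖∑ n ∈ Ioc a b, (((trunc ArithmeticFunction.vonMangoldt U +
      trunc muR U * ArithmeticFunction.log -
      (trunc muR U * trunc ArithmeticFunction.vonMangoldt U) * zeR) n : ℝ) : ℂ) * z n‖ ≤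
      U * L + 2 * (U * U * (L * B)) := by
  have hlog : ∀ d ∈ Ioc 0 b, Real.log d ≤ L := by
    intro d hd
    rw [mem_Ioc] at hd
    exact le_trans (Real.log_le_log (by exact_mod_cast hd.1) (by exact_mod_cast hd.2)) hL
  have hvm : ∀ n, |ArithmeticFunction.vonMangoldt n| = ArithmeticFunction.vonMangoldt n :=
    fun n => abs_of_nonneg ArithmeticFunction.vonMangoldt_nonneg
  have hU1 : (1 : ℝ) ≤ U := by exact_mod_cast hU
  have h1 : ‖∑ n ∈ Ioc a b, ((trunc ArithmeticFunction.vonMangoldt U n : ℝ) : ℂ) * z n‖ ≤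
      U * L := by
    have e1 : ∑ n ∈ Ioc a b, ((trunc ArithmeticFunction.vonMangoldt U n : ℝ) : ℂ) * z n =
        ∑ n ∈ Ioc 0 b, ((trunc ArithmeticFunction.vonMangoldt U n : ℝ) : ℂ) *
          (if a < n then z n else 0) := by
      have : Ioc a b = (Ioc 0 b).filter (fun n => a < n) := by
        ext n; simp only [mem_Ioc, mem_filter]; omega
      rw [this, sum_filter]
      refine sum_congr rfl fun n _ => ?_
      split_ifs <;> simp
    rw [e1]
    have := short_sum_le (fun n => trunc ArithmeticFunction.vonMangoldt U n)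
      (fun n => if a < n then z n else 0) b U (L := L) (B := 1) (by linarith) zero_le_one
      (fun d hd => (abs_trunc_le _ _ _).trans ((hvm d).le.trans
        (ArithmeticFunction.vonMangoldt_le_log.trans (hlog d hd))))
      (fun d hd => by rw [trunc_apply, if_neg (by omega)])
      (fun d _ _ => by split_ifs; exacts [hz d, by simp])
    simpa using this
  have h2 : ‖∑ n ∈ Ioc a b, (((trunc muR U * ArithmeticFunction.log) n : ℝ) : ℂ) * z n‖ ≤
      U * U * (L * B) := by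
    rw [sum_conv]
    refine (short_sum_le (fun n => trunc muR U n) _ b U (L := 1) (B := L * B) zero_le_one
      (by positivity) (fun d _ => (abs_trunc_le _ _ _).trans (abs_muR_le d))
      (fun d hd => by rw [trunc_apply, if_neg (by omega)]) (fun d hd1 hd2 => ?_)).trans ?_
    · simp only [ArithmeticFunction.log_apply]
      refine (abel_log (fun m => z (d * m)) (b := b) _ (filter_subset _ _) fun j => ?_).trans
        (by gcongr)
      exact hB d hd1 (hd2.trans (Nat.le_mul_self U)) _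
        (((cvx_Ioc 0 b).filter_mul a b d).filter_lt j)
        ((filter_subset _ _).trans (filter_subset _ _))
    · rw [one_mul]
      gcongr; nlinarith
  have h3 : ‖∑ n ∈ Ioc a b, ((((trunc muR U * trunc ArithmeticFunction.vonMangoldt U) * zeR) n
      : ℝ) : ℂ) * z n‖ ≤ U * U * (L * B) := by
    rw [sum_conv]
    refine (short_sum_le _ _ b (U * U) (L := L) (B := B) (by linarith) hB0
      (fun d hd => (abs_conv_le_log _ _ (fun n => (abs_trunc_le _ _ _).trans (abs_muR_le n))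
        (fun n => (abs_trunc_le _ _ _).trans (hvm n).le) d).trans (hlog d hd))
      (trunc_mul_trunc_eq_zero _ _ U) (fun d hd1 hd2 => ?_)).trans (by push_cast; rfl)
    have e1 : ∑ m ∈ (Ioc 0 b).filter (fun m => a < d * m ∧ d * m ≤ b),
        ((zeR m : ℝ) : ℂ) * z (d * m) =
        ∑ m ∈ (Ioc 0 b).filter (fun m => a < d * m ∧ d * m ≤ b), z (d * m) := by
      refine sum_congr rfl fun m hm => ?_
      rw [zeR_apply (by have := (mem_Ioc.1 (mem_filter.1 hm).1).1; omega)]; simp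
    rw [e1]
    exact hB d hd1 hd2 _ ((cvx_Ioc 0 b).filter_mul a b d) (filter_subset _ _)
  simp only [sub_eq_add_neg, ArithmeticFunction.add_apply, ArithmeticFunction.neg_apply,
    Complex.ofReal_add, Complex.ofReal_neg, add_mul, neg_mul, sum_add_distrib, sum_neg_distrib]
  refine (norm_add_le _ _).trans ?_
  rw [norm_neg]
  linarith [norm_add_le
    (∑ n ∈ Ioc a b, ((trunc ArithmeticFunction.vonMangoldt U n : ℝ) : ℂ) * z n)
    (∑ n ∈ Ioc a b, (((trunc muR U * ArithmeticFunction.log) n : ℝ) : ℂ) * z n)]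

end Crest.Agent.N41.Exp
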