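import Crest.Agent.N41.Exp.Basic

/-!
# Row 41, module EXP, part 2 (helper98)
Weyl's inequality in inverse form and the polynomial Vinogradov lemma.
-/

set_option autoImplicit false

open Finset Polynomial

namespace Crest.Agent.N41.Exp

/-- the difference polynomial `P (x + h) - P x` -/
noncomputable def diffP (P : ℝ[X]) (h : ℝ) : ℝ[X] := taylor h P - P

lemma diffP_eval (P : ℝ[X]) (h x : ℝ) : (diffP P h).eval x = P.eval (x + h) - P.eval x := by
  simp [diffP, taylor_eval]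

lemma taylor_coeff_top {P : ℝ[X]} {k : ℕ} (hP : P.natDegree ≤ k) (h : ℝ) :
    (taylor h P).coeff k = P.coeff k := by
  rw [taylor_coeff]
  have h1 : (hasseDeriv k P).natDegree < 1 := by
    have := natDegree_hasseDeriv_le P k
    omega
  rw [eval_eq_sum_range' h1]
  simp [hasseDeriv_coeff]

lemma diffP_natDegree {P : ℝ[X]} {k : ℕ} (hP : P.natDegree ≤ k + 1) (h : ℝ) :
    (diffP P h).natDegree ≤ k := by
  rw [natDegree_le_iff_coeff_eq_zero]
  intro N hN
  unfold diffP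
  rw [coeff_sub, taylor_coeff_top (by omega), sub_self]

lemma diffP_coeff {P : ℝ[X]} {k : ℕ} (hP : P.natDegree ≤ k + 1) (h : ℝ) :
    (diffP P h).coeff k = h * (((k + 1 : ℕ) : ℝ) * P.coeff (k + 1)) := by
  unfold diffP
  rw [coeff_sub, taylor_coeff]
  have h1 : (hasseDeriv k P).natDegree < 2 := by
    have := natDegree_hasseDeriv_le P k
    omega
  rw [eval_eq_sum_range' h1]
  simp [hasseDeriv_coeff, sum_range_succ, add_comm 1 k]
  ring

/-- geometric sums -/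
lemma linear_sum_mul (c₀ c₁ : ℝ) (a : ℤ) (n : ℕ) :
    (e c₁ - 1) * ∑ m ∈ Ioc a (a + n), e (c₀ + c₁ * m) =
      e (c₀ + c₁ * ((a + n + 1 : ℤ) : ℝ)) - e (c₀ + c₁ * ((a + 1 : ℤ) : ℝ)) := by
  induction n with
  | zero => simp
  | succ n ih =>
    have h1 : Ioc a (a + (n + 1 : ℕ)) = insert (a + n + 1) (Ioc a (a + n)) := by
      ext x; simp only [mem_Ioc, mem_insert]; push_cast; omega
    rw [h1, sum_insert (by simp), mul_add, ih]
    have h2 : e (c₀ + c₁ * ((a + (n + 1 : ℕ) + 1 : ℤ) : ℝ)) =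
        e c₁ * e (c₀ + c₁ * ((a + n + 1 : ℤ) : ℝ)) := by
      rw [← e_add]; congr 1; push_cast; ring
    rw [h2]; ring

lemma linear_sum_le (c₀ c₁ : ℝ) (a b : ℤ) :
    |c₁ - round c₁| * ‖∑ m ∈ Ioc a b, e (c₀ + c₁ * m)‖ ≤ 1 / 2 := by
  rcases le_or_gt b a with hab | hab
  · rw [Ioc_eq_empty (by omega)]; simp
  obtain ⟨n, rfl⟩ : ∃ n : ℕ, b = a + n := ⟨(b - a).toNat, by omega⟩
  have h1 := congrArg norm (linear_sum_mul c₀ c₁ a n)
  rw [norm_mul] at h1
  have h2 : ‖e (c₀ + c₁ * ((a + n + 1 : ℤ) : ℝ)) - e (c₀ + c₁ * ((a + 1 : ℤ) : ℝ))‖ ≤ 2 := by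
    refine (norm_sub_le _ _).trans ?_
    rw [norm_e, norm_e]; norm_num
  have h3 := four_mul_le_norm_e_sub_one c₁
  have h4 := norm_nonneg (∑ m ∈ Ioc a (a + n), e (c₀ + c₁ * m))
  nlinarith

lemma norm_sum_e_le {ι : Type*} (I : Finset ι) (f : ι → ℝ) : ‖∑ n ∈ I, e (f n)‖ ≤ I.card := by
  refine (norm_sum_le _ _).trans ?_
  simp

lemma card_Ioc_le {a b : ℤ} {N : ℝ} (hN : 0 ≤ N) (h : (b : ℝ) - a ≤ N) :
    ((Ioc a b).card : ℝ) ≤ N := by
  rw [Int.card_Ioc]
  rcases le_or_gt b a with hab | hab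
  · have : (b - a).toNat = 0 := by omega
    rw [this]; simpa using hN
  · have : (((b - a).toNat : ℕ) : ℤ) = b - a := by omega
    have h2 : (((b - a).toNat : ℕ) : ℝ) = (b : ℝ) - a := by exact_mod_cast this
    linarith

/-- Weyl differencing -/
lemma weyl_diff (z : ℤ → ℂ) (a b : ℤ) :
    ‖∑ n ∈ Ioc a b, z n‖ ^ 2 ≤ ∑ h ∈ Icc (-(b - a)) (b - a),
      ‖∑ n ∈ Ioc (max a (a - h)) (min b (b - h)), z (n + h) * (starRingEnd ℂ) (z n)‖ := by
  have h1 : ((‖∑ n ∈ Ioc a b, z n‖ ^ 2 : ℝ) : ℂ) = ∑ h ∈ Icc (-(b - a)) (b - a),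
      ∑ n ∈ Ioc (max a (a - h)) (min b (b - h)), z (n + h) * (starRingEnd ℂ) (z n) := by
    push_cast
    rw [← Complex.mul_conj', map_sum, sum_mul_sum, sum_sigma', sum_sigma']
    refine sum_bij' (fun p _ => ⟨p.1 - p.2, p.2⟩) (fun p _ => ⟨p.2 + p.1, p.2⟩) ?_ ?_ ?_ ?_ ?_
    · rintro ⟨x, y⟩ hp
      simp only [mem_sigma, mem_Ioc, mem_Icc] at hp ⊢
      omega
    · rintro ⟨x, y⟩ hp
      simp only [mem_sigma, mem_Ioc, mem_Icc] at hp ⊢
      omega
    · rintro ⟨x, y⟩ _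
      simp
    · rintro ⟨x, y⟩ _
      simp
    · rintro ⟨x, y⟩ _
      simp
  have h2 := congrArg norm h1
  rw [Complex.norm_real, Real.norm_eq_abs, abs_of_nonneg (by positivity)] at h2
  rw [h2]
  exact norm_sum_le _ _

/-- the statement of the Weyl inverse theorem in degree `k` with exponent `C` -/
def WeylInv (k C : ℕ) : Prop :=
  ∀ P : ℝ[X], P.natDegree ≤ k → ∀ (a b : ℤ) (N D : ℝ), 2 ≤ D → 0 < N → (b : ℝ) - a ≤ N →
    N ≤ D * ‖∑ n ∈ Ioc a b, e (P.eval (n : ℝ))‖ → Appr (P.coeff k) (D ^ C) (D ^ C / N ^ k)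

lemma weylInv_one : WeylInv 1 1 := by
  intro P hP a b N D hD hN hab hS
  have h1 : ∀ x : ℝ, P.eval x = P.coeff 0 + P.coeff 1 * x := by
    intro x
    rw [eval_eq_sum_range' (n := 2) (by omega)]
    simp [sum_range_succ]
  simp_rw [h1] at hS
  have h2 := linear_sum_le (P.coeff 0) (P.coeff 1) a b
  refine ⟨1, le_rfl, by simp; linarith, round (P.coeff 1), ?_⟩
  simp only [Nat.cast_one, one_mul, pow_one]
  rw [le_div_iff₀ hN]
  have h3 := abs_nonneg (P.coeff 1 - round (P.coeff 1))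
  nlinarith

lemma succ_le_pow {D : ℝ} (hD : 2 ≤ D) (k : ℕ) : ((k + 1 : ℕ) : ℝ) ≤ D ^ (k + 1) := by
  have h1 : k + 1 ≤ 2 ^ (k + 1) := Nat.lt_two_pow_self.le
  calc ((k + 1 : ℕ) : ℝ) ≤ ((2 ^ (k + 1) : ℕ) : ℝ) := by exact_mod_cast h1
    _ = 2 ^ (k + 1) := by push_cast; rfl
    _ ≤ D ^ (k + 1) := by gcongr

/-- the common last step of the two inductions -/
lemma step (β : ℝ) (k C : ℕ) (S : Finset ℤ) {N D E : ℝ} (hD : 2 ≤ D) (hE : 0 ≤ E)
    (hN : D ^ (8 * (5 * C + 5)) ≤ N) (hS : ∀ h ∈ S, |(h : ℝ)| ≤ N) (hcard : N ≤ D ^ 5 * S.card)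
    (hsmall : E / N ^ k * D ^ (21 * (5 * C + 5)) ≤ 1)
    (h : ∀ h ∈ S, Appr ((h : ℝ) * (((k + 1 : ℕ) : ℝ) * β)) ((D ^ 5) ^ C)
      ((D ^ 5) ^ C * E / N ^ k)) :
    Appr β (D ^ (21 * (5 * C + 5) + (k + 1)))
      (D ^ (21 * (5 * C + 5) + (k + 1)) * E / N ^ (k + 1)) := by
  have hD1 : (1 : ℝ) ≤ D := by linarith
  have hN0 : 0 < N := lt_of_lt_of_le (by positivity) hN
  set D' := D ^ (5 * C + 5) with hD'
  have hD'2 : 2 ≤ D' := hD.trans (le_self_pow₀ hD1 (by omega))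
  have h5C : (D ^ 5) ^ C ≤ D' := by
    rw [← pow_mul]; exact pow_le_pow_right₀ hD1 (by omega)
  have h55 : D ^ 5 ≤ D' := pow_le_pow_right₀ hD1 (by omega)
  have e21 : D ^ (21 * (5 * C + 5)) = D' ^ 21 := by rw [hD', ← pow_mul, mul_comm]
  have e8 : D ^ (8 * (5 * C + 5)) = D' ^ 8 := by rw [hD', ← pow_mul, mul_comm]
  have key := lift (((k + 1 : ℕ) : ℝ) * β) S (L := N) (D := D') (ε := D' * E / N ^ k) hD'2
    (by rwa [← e8]) hS (hcard.trans (by gcongr)) (by positivity)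
    (by rw [e21] at hsmall; convert hsmall using 1; ring)
    (fun x hx => (h x hx).mono h5C (by gcongr))
  refine (key.of_mul (by omega)).mono ?_ ?_
  · rw [pow_add, e21, mul_comm]
    have : D' ^ 9 ≤ D' ^ 21 := pow_le_pow_right₀ (by linarith) (by norm_num)
    exact mul_le_mul this (succ_le_pow hD k) (by positivity) (by positivity)
  · rw [pow_add, e21]
    have h1 : (1 : ℝ) ≤ D ^ (k + 1) := one_le_pow₀ hD1
    calc D' ^ 20 * (D' * E / N ^ k) / N = D' ^ 21 * 1 * E / N ^ (k + 1) := by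
          rw [pow_succ N]; field_simp
      _ ≤ _ := by gcongr

lemma weylInv_succ {k C : ℕ} (hk : 1 ≤ k) (ih : WeylInv k C) :
    WeylInv (k + 1) (21 * (5 * C + 5) * (k + 1) + (k + 1)) := by
  intro P hP a b N D hD hN hab hS
  have hD1 : (1 : ℝ) ≤ D := by linarith
  rcases le_or_gt N (D ^ (21 * (5 * C + 5))) with hsm | hbig
  · exact appr_small _ hD hN hsm (by omega)
  have hN1 : (1 : ℝ) ≤ N := (one_le_pow₀ hD1).trans hbig.le
  set T : ℤ → ℝ := fun h => ‖∑ n ∈ Ioc (max a (a - h)) (min b (b - h)),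
    e ((diffP P h).eval (n : ℝ))‖ with hT
  have hdiff : ‖∑ n ∈ Ioc a b, e (P.eval (n : ℝ))‖ ^ 2 ≤ ∑ h ∈ Icc (-(b - a)) (b - a), T h := by
    refine (weyl_diff (fun n => e (P.eval (n : ℝ))) a b).trans (le_of_eq ?_)
    refine sum_congr rfl fun h _ => ?_
    simp only [hT, diffP_eval, e_sub, Int.cast_add]
  have hlen : ∀ h : ℤ, ((min b (b - h) : ℤ) : ℝ) - ((max a (a - h) : ℤ) : ℝ) ≤ N := by
    intro h
    have h1 : ((min b (b - h) : ℤ) : ℝ) ≤ b := by exact_mod_cast min_le_left _ _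
    have h2 : (a : ℝ) ≤ ((max a (a - h) : ℤ) : ℝ) := by exact_mod_cast le_max_left _ _
    linarith
  have hTle : ∀ h ∈ Icc (-(b - a)) (b - a), T h ≤ N := fun h _ =>
    (norm_sum_e_le _ _).trans (card_Ioc_le hN.le (hlen h))
  have habs : ∀ h ∈ Icc (-(b - a)) (b - a), |(h : ℝ)| ≤ N := by
    intro h hh
    rw [mem_Icc] at hh
    have h1 : -((b : ℝ) - a) ≤ h := by exact_mod_cast hh.1
    have h2 : (h : ℝ) ≤ (b : ℝ) - a := by exact_mod_cast hh.2
    rw [abs_le]; constructor <;> linarith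
  have hcardH : ((Icc (-(b - a)) (b - a)).card : ℝ) ≤ 3 * N := by
    refine (card_le_of_diam _ (w := 2 * N) (by linarith) ?_).trans (by linarith)
    intro x hx y hy
    have := abs_le.1 (habs x hx)
    have := abs_le.1 (habs y hy)
    linarith
  have hA : N ^ 2 / D ^ 2 ≤ ∑ h ∈ Icc (-(b - a)) (b - a), T h := by
    refine le_trans ?_ hdiff
    rw [div_le_iff₀ (by positivity), ← mul_pow, mul_comm]
    gcongr
  have hpop := popular _ T (t := N / (6 * D ^ 2)) (by positivity) hA hTle hcardH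
    (le_of_eq (by field_simp; ring))
  set G := (Icc (-(b - a)) (b - a)).filter (fun h => N / (6 * D ^ 2) ≤ T h) with hG
  have h65 : 6 * D ^ 2 ≤ D ^ 5 := const_mul_pow_le hD 3 (by norm_num) (by norm_num)
  have hD5 : 2 ≤ D ^ 5 := hD.trans (le_self_pow₀ hD1 (by omega))
  have key := step (P.coeff (k + 1)) k C G (N := N) (D := D) (E := 1) hD zero_le_one
    (le_trans (pow_le_pow_right₀ hD1 (by omega)) hbig.le)
    (fun h hh => habs h (mem_filter.1 hh).1) ?_ ?_ ?_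
  · have hexp : D ^ (21 * (5 * C + 5) + (k + 1)) ≤ D ^ (21 * (5 * C + 5) * (k + 1) + (k + 1)) :=
      pow_le_pow_right₀ hD1 (by nlinarith)
    refine key.mono hexp ?_
    rw [mul_one]
    exact div_le_div_of_nonneg_right hexp (by positivity)
  · have h1 : N ≤ 2 * D ^ 2 * G.card := by
      rw [div_div, div_le_iff₀ (by positivity)] at hpop
      nlinarith
    refine h1.trans ?_
    gcongr; linarith [sq_nonneg D]
  · rw [div_mul_eq_mul_div, one_mul, div_le_one (by positivity)]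
    exact hbig.le.trans (le_self_pow₀ hN1 (by omega))
  · intro h hh
    rw [← diffP_coeff hP, mul_one]
    refine ih _ (diffP_natDegree hP _) _ _ N (D ^ 5) hD5 hN (hlen h) ?_
    have h1 := (mem_filter.1 hh).2
    rw [div_le_iff₀ (by positivity)] at h1
    calc N ≤ T h * (6 * D ^ 2) := h1
      _ ≤ T h * D ^ 5 := by gcongr
      _ = _ := mul_comm _ _

theorem exists_weylInv (k : ℕ) (hk : 1 ≤ k) : ∃ C, WeylInv k C := by
  induction k, hk using Nat.le_induction with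
  | base => exact ⟨1, weylInv_one⟩
  | succ k hk ih =>
    obtain ⟨C, hC⟩ := ih
    exact ⟨_, weylInv_succ hk hC⟩

/-- the statement of the polynomial Vinogradov lemma -/
def PolyVin (k C : ℕ) : Prop :=
  ∀ Q : ℝ[X], Q.natDegree ≤ k → ∀ (S : Finset ℤ) (N D ε : ℝ), 2 ≤ D → 0 ≤ ε → D ^ C ≤ N →
    ε * D ^ C ≤ 1 → (∀ x ∈ S, ∀ y ∈ S, (y : ℝ) - x ≤ N) → N ≤ D * S.card →
    (∀ n ∈ S, ∃ r : ℤ, |Q.eval (n : ℝ) - r| ≤ ε) →
    Appr (Q.coeff k) (D ^ C) (D ^ C * ε / N ^ k)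

lemma polyVin_zero : PolyVin 0 0 := by
  intro Q hQ S N D ε hD hε hN _ _ hcard h
  have hS : S.Nonempty := by
    rw [← card_pos]
    by_contra h0
    have : S.card = 0 := by omega
    rw [this] at hcard
    simp at hcard hN
    linarith
  obtain ⟨n, hn⟩ := hS
  obtain ⟨r, hr⟩ := h n hn
  refine ⟨1, le_rfl, by simp, r, ?_⟩
  rw [eq_C_of_natDegree_le_zero hQ] at hr
  simpa using hr

lemma polyVin_succ {k C : ℕ} (ih : PolyVin k C) :
    PolyVin (k + 1) (21 * (5 * C + 5) + (k + 1) + 1) := by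
  intro Q hQ S N D ε hD hε hN hεD hdiam hcard h
  have hD1 : (1 : ℝ) ≤ D := by linarith
  have hN1 : (1 : ℝ) ≤ N := (one_le_pow₀ hD1).trans hN
  have hN0 : 0 < N := by linarith
  set T : ℤ → ℝ := fun h => ((S.filter (fun n => n + h ∈ S)).card : ℝ) with hT
  set H : Finset ℤ := Icc (-⌊N⌋) ⌊N⌋ with hH
  have habs : ∀ h ∈ H, |(h : ℝ)| ≤ N := by
    intro h hh
    rw [hH, mem_Icc] at hh
    have h1 : -((⌊N⌋ : ℤ) : ℝ) ≤ h := by exact_mod_cast hh.1
    have h2 : (h : ℝ) ≤ ((⌊N⌋ : ℤ) : ℝ) := by exact_mod_cast hh.2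
    have := Int.floor_le N
    rw [abs_le]; constructor <;> linarith
  have hsum : (S.card : ℝ) ^ 2 = ∑ h ∈ H, T h := by
    have h1 : S.card * S.card = ∑ h ∈ H, (S.filter (fun n => n + h ∈ S)).card := by
      rw [← card_product, ← card_sigma]
      refine card_bij' (fun p _ => ⟨p.1 - p.2, p.2⟩) (fun p _ => ⟨p.2 + p.1, p.2⟩) ?_ ?_ ?_ ?_
      · rintro ⟨x, y⟩ hp
        simp only [mem_sigma, mem_product, mem_filter, hH, mem_Icc] at hp ⊢
        have h1 := hdiam x hp.1 y hp.2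
        have h2 := hdiam y hp.2 x hp.1
        have h3 : y - x ≤ ⌊N⌋ := Int.le_floor.2 (by push_cast; exact h1)
        have h4 : x - y ≤ ⌊N⌋ := Int.le_floor.2 (by push_cast; exact h2)
        refine ⟨⟨by omega, h4⟩, hp.2, by simpa using hp.1⟩
      · rintro ⟨x, y⟩ hp
        simp only [mem_sigma, mem_product, mem_filter] at hp ⊢
        exact ⟨hp.2.2, hp.2.1⟩
      · rintro ⟨x, y⟩ _
        simp
      · rintro ⟨x, y⟩ _
        simp
    rw [pow_two]; simp only [hT]; exact_mod_cast h1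
  have hScard : (S.card : ℝ) ≤ 2 * N := (card_le_of_diam S hN0.le hdiam).trans (by linarith)
  have hTle : ∀ h ∈ H, T h ≤ 2 * N := fun h _ =>
    le_trans (by simp only [hT]; exact_mod_cast card_filter_le _ _) hScard
  have hcardH : (H.card : ℝ) ≤ 3 * N := by
    refine (card_le_of_diam _ (w := 2 * N) (by linarith) ?_).trans (by linarith)
    intro x hx y hy
    have := abs_le.1 (habs x hx)
    have := abs_le.1 (habs y hy)
    linarith
  have hA : N ^ 2 / D ^ 2 ≤ ∑ h ∈ H, T h := by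
    rw [← hsum, div_le_iff₀ (by positivity), ← mul_pow, mul_comm]
    gcongr
  have hpop := popular _ T (t := N / (6 * D ^ 2)) (by positivity) hA hTle hcardH
    (le_of_eq (by field_simp; ring))
  set G := H.filter (fun h => N / (6 * D ^ 2) ≤ T h) with hG
  have h65 : 6 * D ^ 2 ≤ D ^ 5 := const_mul_pow_le hD 3 (by norm_num) (by norm_num)
  have hD5 : 2 ≤ D ^ 5 := hD.trans (le_self_pow₀ hD1 (by omega))
  have h2ε : ∀ j : ℕ, j ≤ 21 * (5 * C + 5) → 2 * ε * D ^ j ≤ 1 := by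
    intro j hj
    refine le_trans ?_ hεD
    have := const_mul_pow_le hD (c := 2) (a := j) (b := 21 * (5 * C + 5) + (k + 1) + 1) 1
      (by norm_num) (by omega)
    calc 2 * ε * D ^ j = ε * (2 * D ^ j) := by ring
      _ ≤ _ := by gcongr
  have key := step (Q.coeff (k + 1)) k C G (N := N) (D := D) (E := 2 * ε) hD (by positivity)
    (le_trans (pow_le_pow_right₀ hD1 (by omega)) hN)
    (fun h hh => habs h (mem_filter.1 hh).1) ?_ ?_ ?_
  · refine key.mono (pow_le_pow_right₀ hD1 (by omega)) ?_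
    rw [pow_succ D]
    have : D ^ (21 * (5 * C + 5) + (k + 1)) * (2 * ε) ≤
        D ^ (21 * (5 * C + 5) + (k + 1)) * D * ε := by
      rw [mul_assoc]; gcongr
    gcongr
  · have h1 : N ≤ 4 * D ^ 2 * G.card := by
      rw [div_div, div_le_iff₀ (by positivity)] at hpop
      nlinarith
    refine h1.trans ?_
    gcongr; linarith [sq_nonneg D]
  · refine le_trans ?_ (h2ε _ le_rfl)
    gcongr
    exact div_le_self (by positivity) (one_le_pow₀ hN1)
  · intro x hx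
    rw [← diffP_coeff hQ]
    refine ih _ (diffP_natDegree hQ _) (S.filter (fun n => n + x ∈ S)) N (D ^ 5) (2 * ε) hD5
      (by positivity) ?_ ?_ ?_ ?_ ?_
    · rw [← pow_mul]; exact le_trans (pow_le_pow_right₀ hD1 (by omega)) hN
    · rw [← pow_mul]; exact h2ε _ (by omega)
    · intro u hu v hv
      exact hdiam u (mem_filter.1 hu).1 v (mem_filter.1 hv).1
    · have h1 := (mem_filter.1 hx).2
      rw [div_le_iff₀ (by positivity)] at h1
      calc N ≤ T x * (6 * D ^ 2) := h1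
        _ ≤ T x * D ^ 5 := by gcongr
        _ = _ := mul_comm _ _
    · intro n hn
      rw [mem_filter] at hn
      obtain ⟨r₁, hr₁⟩ := h n hn.1
      obtain ⟨r₂, hr₂⟩ := h _ hn.2
      refine ⟨r₂ - r₁, ?_⟩
      rw [diffP_eval]
      push_cast at hr₂ ⊢
      have := abs_le.1 hr₁
      have := abs_le.1 hr₂
      rw [abs_le]; constructor <;> linarith

theorem exists_polyVin (k : ℕ) : ∃ C, PolyVin k C := by
  induction k with
  | zero => exact ⟨0, polyVin_zero⟩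
  | succ k ih =>
    obtain ⟨C, hC⟩ := ih
    exact ⟨_, polyVin_succ hC⟩

end Crest.Agent.N41.Exp
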